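import Vale.Agent.P254.FewFacets.Vertices.Main

/-!
The exact second moments for one point more than a simplex, and the strong inequality for such hulls.
-/

noncomputable section

open MeasureTheory Set Matrix
open scoped ENNReal Nat

namespace Vale.Agent.P254.FewFacets.Vertices

variable {n : ℕ} {G : Fin (n + 2) → Fin (n + 1) → ℝ}

lemma exists_dependence (h1 : ∀ i, G i 0 = 1) :
    ∃ μ ν : Fin (n + 2) → ℝ, (∀ i, 0 ≤ μ i) ∧ (∀ i, 0 ≤ ν i) ∧ (∀ i, μ i * ν i = 0) ∧
      ∑ i, μ i = 1 ∧ ∑ i, ν i = 1 ∧ ∑ i, (μ i - ν i) • G i = 0 := by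
  set L : (Fin (n + 2) → ℝ) →ₗ[ℝ] (Fin (n + 1) → ℝ) :=
    (Matrix.of G : Matrix (Fin (n + 2)) (Fin (n + 1)) ℝ)ᵀ.mulVecLin with hL
  have hker : LinearMap.ker L ≠ ⊥ := LinearMap.ker_ne_bot_of_finrank_lt (by simp)
  obtain ⟨l, hl, hl0⟩ := Submodule.exists_mem_ne_zero_of_ne_bot hker
  rw [LinearMap.mem_ker] at hl
  have hdep : ∀ j, ∑ i, l i * G i j = 0 := fun j => by
    have := congrFun hl j
    simpa [hL, Matrix.mulVec_transpose, Matrix.vecMul, dotProduct, mul_comm] using this
  have hsum : ∑ i, l i = 0 := by simpa [h1] using hdep 0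
  set a := ∑ i, max (l i) 0 with ha
  have hb : ∑ i, max (-l i) 0 = a := by
    have e : ∀ i, max (-l i) 0 = max (l i) 0 - l i := fun i => by
      rcases le_total (l i) 0 with h | h <;> simp [h]
    simp only [e, Finset.sum_sub_distrib, hsum, sub_zero, ha]
  have ha0 : 0 < a := by
    refine lt_of_le_of_ne (Finset.sum_nonneg fun i _ => le_max_right _ _) fun h => hl0 ?_
    funext i
    have h1' := (Finset.sum_eq_zero_iff_of_nonneg fun i _ => le_max_right (l i) (0 : ℝ)).1 h.symm i
      (Finset.mem_univ i)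
    have h2' := (Finset.sum_eq_zero_iff_of_nonneg fun i _ => le_max_right (-l i) (0 : ℝ)).1
      (hb.trans h.symm) i (Finset.mem_univ i)
    show l i = 0
    linarith [le_max_left (l i) 0, le_max_left (-l i) 0]
  refine ⟨fun i => max (l i) 0 / a, fun i => max (-l i) 0 / a,
    fun i => div_nonneg (le_max_right _ _) ha0.le, fun i => div_nonneg (le_max_right _ _) ha0.le,
    fun i => ?_, ?_, ?_, ?_⟩
  · rcases le_total (l i) 0 with h | h <;> simp [h]
  · rw [← Finset.sum_div, ← ha, div_self ha0.ne']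
  · rw [← Finset.sum_div, hb, div_self ha0.ne']
  · have e : ∀ i, max (l i) 0 / a - max (-l i) 0 / a = a⁻¹ * l i := fun i => by
      rcases le_total (l i) 0 with h | h <;> simp [h] <;> ring
    simp only [e, ← smul_smul, ← Finset.smul_sum]
    have : ∑ i, l i • G i = 0 := by
      funext j; simpa [Finset.sum_apply] using hdep j
    rw [this, smul_zero]

/-- The exact determinant of the second moments for one point more than a simplex. -/
theorem coneSecond_det_exact (h1 : ∀ i, G i 0 = 1)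
    (hinj : Function.Injective (Matrix.of G : Matrix (Fin (n + 2)) (Fin (n + 1)) ℝ).mulVec)
    {μ ν : Fin (n + 2) → ℝ} (hμ : ∀ i, 0 ≤ μ i) (hν : ∀ i, 0 ≤ ν i)
    (hμν : ∀ i, μ i * ν i = 0) (hμ1 : ∑ i, μ i = 1)
    (hdep : ∑ i, (μ i - ν i) • G i = 0) :
    (coneSecond G).det = ((n : ℝ) + 2) * coneMass G ^ (n + 3)
      * (∑ i, μ i ^ 2 + ∑ i, ν i ^ 2 - (∑ i, μ i ^ 2) * ∑ i, ν i ^ 2) := by
  classical
  set B : Matrix (Fin (n + 2)) (Fin (n + 1)) ℝ := Matrix.of G with hB
  set R := Bᵀ * B with hR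
  have hRp : R.PosDef := by simpa [hR] using Matrix.PosDef.conjTranspose_mul_self B hinj
  have hRu : IsUnit R.det := hRp.det_pos.ne'.isUnit
  set d : Fin (n + 2) → ℝ := fun i => μ i - ν i with hd
  set A := ∑ i, μ i ^ 2 with hA
  set A' := ∑ i, ν i ^ 2 with hA'
  have hA0 : 0 < A := by
    refine lt_of_le_of_ne (Finset.sum_nonneg fun i _ => sq_nonneg _) fun h => ?_
    have := (Finset.sum_eq_zero_iff_of_nonneg fun i _ => sq_nonneg (μ i)).1 h.symm
    simp only [Finset.mem_univ, pow_eq_zero_iff (two_ne_zero : (2 : ℕ) ≠ 0), true_implies] at this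
    simp [this] at hμ1
  set D := A + A' with hDdef
  have hD0 : 0 < D := add_pos_of_pos_of_nonneg hA0 (Finset.sum_nonneg fun i _ => sq_nonneg _)
  have hdd : ∑ i, d i ^ 2 = D := by
    rw [hDdef, hA, hA', ← Finset.sum_add_distrib]
    refine Finset.sum_congr rfl fun i _ => ?_
    have := hμν i
    simp only [hd]
    linear_combination -2 * this
  have hdμ : ∑ i, d i * μ i = A := by
    rw [hA]
    refine Finset.sum_congr rfl fun i _ => ?_
    have := hμν i
    simp only [hd]
    linear_combination -this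
  have hBd : Bᵀ *ᵥ d = 0 := by
    funext j
    have := congrFun hdep j
    simpa [hB, hd, Matrix.mulVec, dotProduct, Finset.sum_apply, mul_comm] using this
  set H := B * R⁻¹ * Bᵀ with hH
  have hRit : (R⁻¹)ᵀ = R⁻¹ := by rw [Matrix.transpose_nonsing_inv]; simp [hR]
  have hHt : Hᵀ = H := by simp [hH, hRit, Matrix.mul_assoc]
  set P := (1 : Matrix (Fin (n + 2)) (Fin (n + 2)) ℝ) - H - D⁻¹ • vecMulVec d d with hP
  have hHd : H *ᵥ d = 0 := by rw [hH, ← Matrix.mulVec_mulVec, hBd, Matrix.mulVec_zero]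
  have hHH : H * H = H := by
    rw [hH]
    calc B * R⁻¹ * Bᵀ * (B * R⁻¹ * Bᵀ) = B * (R⁻¹ * R) * (R⁻¹ * Bᵀ) := by
          rw [hR]; simp only [Matrix.mul_assoc]
      _ = _ := by rw [Matrix.nonsing_inv_mul _ hRu, Matrix.mul_one, Matrix.mul_assoc]
  have hHv : H * vecMulVec d d = 0 := by rw [Matrix.mul_vecMulVec, hHd]; simp
  have hvH : vecMulVec d d * H = 0 := by
    rw [Matrix.vecMulVec_mul, ← Matrix.mulVec_transpose, hHt, hHd]; simp
  have hvv : vecMulVec d d * vecMulVec d d = D • vecMulVec d d := by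
    rw [Matrix.vecMulVec_mul_vecMulVec, Matrix.vecMulVec_smul, show d ⬝ᵥ d = D by
      rw [← hdd]; simp [dotProduct, sq]]
  have hPP : P * P = P := by
    rw [hP]
    simp only [Matrix.sub_mul, Matrix.mul_sub, Matrix.one_mul, Matrix.mul_one, Matrix.smul_mul,
      Matrix.mul_smul, hHH, hHv, hvH, hvv, smul_zero, smul_smul,
      inv_mul_cancel₀ hD0.ne', one_smul, sub_self, sub_zero]
  have hPt : Pᵀ = P := by
    have hvt : (vecMulVec d d)ᵀ = vecMulVec d d := Matrix.transpose_vecMulVec d d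
    simp [hP, hHt, hvt]
  have hPtr : P.trace = 0 := by
    rw [hP, Matrix.trace_sub, Matrix.trace_sub, Matrix.trace_one, Matrix.trace_smul,
      Matrix.trace_vecMulVec, hH, Matrix.trace_mul_cycle, ← hR, Matrix.mul_nonsing_inv _ hRu,
      Matrix.trace_one, Fintype.card_fin, Fintype.card_fin, show d ⬝ᵥ d = D by
        rw [← hdd]; simp [dotProduct, sq], smul_eq_mul, inv_mul_cancel₀ hD0.ne']
    push_cast
    ring
  have hP0 : P = 0 := by
    have h0 : ∀ i, ∑ l, P i l ^ 2 = P i i := fun i => by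
      conv_rhs => rw [← hPP, Matrix.mul_apply]
      refine Finset.sum_congr rfl fun l _ => ?_
      rw [sq, show P l i = P i l by rw [← Matrix.transpose_apply P i l, hPt]]
    have h1' : ∑ i, ∑ l, P i l ^ 2 = 0 := by simp only [h0]; exact hPtr
    ext i l
    have h2 := (Finset.sum_eq_zero_iff_of_nonneg fun i _ =>
      Finset.sum_nonneg fun l _ => sq_nonneg (P i l)).1 h1' i (Finset.mem_univ i)
    simpa using (Finset.sum_eq_zero_iff_of_nonneg fun l _ => sq_nonneg (P i l)).1 h2 l
      (Finset.mem_univ l)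
  have hHeq : H = 1 - D⁻¹ • vecMulVec d d := by
    rw [hP, sub_sub, sub_eq_zero] at hP0
    rw [hP0]
    abel
  -- squared minors
  have hminor : ∀ i, (basisMat G (Fin.succAbove i)).det ^ 2 = R.det * (d i ^ 2 / D) := by
    intro i
    set M := basisMat G (Fin.succAbove i) with hM
    have e : M * Mᵀ = R - vecMulVec (G i) (G i) := by
      ext j k
      simp [hM, basisMat, hR, hB, Matrix.mul_apply, vecMulVec_apply,
        Fin.sum_univ_succAbove _ i]
    have e2 : R - vecMulVec (G i) (G i)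
        = R * (1 + Matrix.replicateCol Unit (-(R⁻¹ *ᵥ G i)) * Matrix.replicateRow Unit (G i)) := by
      rw [← Matrix.vecMulVec_eq, Matrix.mul_add, Matrix.mul_one, Matrix.mul_vecMulVec,
        Matrix.mulVec_neg, Matrix.mulVec_mulVec, Matrix.mul_nonsing_inv _ hRu, Matrix.one_mulVec,
        Matrix.neg_vecMulVec, sub_eq_add_neg]
    have e3 : G i ⬝ᵥ (R⁻¹ *ᵥ G i) = H i i := by
      rw [hH, Matrix.mul_assoc]
      simp only [Matrix.mul_apply, Matrix.transpose_apply, hB, Matrix.of_apply, dotProduct,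
        Matrix.mulVec]
    calc M.det ^ 2 = (M * Mᵀ).det := by rw [Matrix.det_mul, Matrix.det_transpose, sq]
      _ = _ := by
          rw [e, e2, Matrix.det_mul, Matrix.det_one_add_replicateCol_mul_replicateRow,
            dotProduct_neg, e3, hHeq]
          simp [vecMulVec_apply, sq]
          field_simp
          simp
  have hdet_ne : ∀ i, (basisMat G (Fin.succAbove i)).det ≠ 0 ↔ d i ≠ 0 := by
    intro i
    constructor
    · intro h hz
      have := hminor i
      rw [hz] at this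
      simp [h] at this
    · intro h hz
      have := hminor i
      rw [hz] at this
      rcases mul_eq_zero.1 (show R.det * (d i ^ 2 / D) = 0 by rw [← this]; simp) with h' | h'
      · exact hRp.det_pos.ne' h'
      · simp [h, hD0.ne'] at h'
  have hgap : ∀ (h : Fin (n + 2) → ℝ) i, d i ≠ 0 →
      gap G (Fin.succAbove i) i h = (∑ k, h k * d k) / d i := by
    intro h i hi
    have e : G i = ∑ k, (-(d (Fin.succAbove i k) / d i)) • G (Fin.succAbove i k) := by
      have h0 := hdep
      rw [Fin.sum_univ_succAbove _ i] at h0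
      funext j
      have h2 := congrFun h0 j
      simp only [Pi.add_apply, Pi.smul_apply, Finset.sum_apply, smul_eq_mul, Pi.zero_apply] at h2
      simp only [Finset.sum_apply, Pi.smul_apply, smul_eq_mul, neg_mul, Finset.sum_neg_distrib,
        div_mul_eq_mul_div, ← Finset.sum_div]
      simp only [hd] at hi ⊢
      field_simp
      linarith
    rw [gap]
    conv_lhs => rw [e, coords_unique ((hdet_ne i).2 hi)]
    rw [Fin.sum_univ_succAbove (fun k => h k * d k) i, add_div, mul_div_assoc, div_self hi, mul_one,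
      Finset.sum_div, sub_eq_add_neg, ← Finset.sum_neg_distrib]
    congr 1
    exact Finset.sum_congr rfl fun k _ => by ring
  -- heights with positive pairing
  obtain ⟨i₀, hi₀⟩ : ∃ i, d i ≠ 0 := by
    by_contra hc
    push Not at hc
    simp [hc] at hdd
    exact hD0.ne hdd
  obtain ⟨h₀, hh₀⟩ := exists_heights G
  obtain ⟨h, hh, hpos⟩ : ∃ h : Fin (n + 2) → ℝ,
      (∀ f : Fin (n + 1) → Fin (n + 2), ∀ l, (∀ i, f i ≠ l) → gap G f l h ≠ 0) ∧
        0 < ∑ k, h k * d k := by
    have hne : ∑ k, h₀ k * d k ≠ 0 := fun hz =>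
      hh₀ _ i₀ (fun k => Fin.succAbove_ne i₀ k) (by rw [hgap h₀ i₀ hi₀, hz, zero_div])
    rcases lt_or_gt_of_ne hne with hlt | hgt
    · refine ⟨-h₀, fun f l hl => ?_, by simpa using hlt⟩
      have : gap G f l (-h₀) = -gap G f l h₀ := by simp [gap]; ring
      rw [this]
      exact neg_ne_zero.2 (hh₀ f l hl)
    · exact ⟨h₀, hh₀, hgt⟩
  set T := (Finset.univ : Finset (Fin (n + 2))).filter fun i => 0 < μ i with hT
  have hμd : ∀ i, 0 < μ i ↔ 0 < d i := by
    intro i
    rcases mul_eq_zero.1 (hμν i) with h' | h'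
    · simp only [hd, h', zero_sub, lt_self_iff_false, false_iff, not_lt, neg_nonpos]
      exact hν i
    · simp [hd, h']
  have hgood : goodSimplices G h = T.image fun i => Fin.succAbove i := by
    ext f
    simp only [goodSimplices, Finset.mem_filter, Finset.mem_univ, true_and, Finset.mem_image, hT]
    constructor
    · rintro ⟨hfm, hfd, hfg⟩
      set s := (Finset.univ : Finset (Fin (n + 1))).image f with hs
      have hsc : sᶜ.card = 1 := by
        rw [Finset.card_compl, hs, Finset.card_image_of_injective _ hfm.injective]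
        simp
      obtain ⟨i, hi⟩ := Finset.card_eq_one.1 hsc
      have hf : f = Fin.succAbove i := by
        refine (hfm.range_inj (Fin.strictMono_succAbove i)).1 ?_
        rw [Fin.range_succAbove]
        ext x
        have hx := Finset.ext_iff.1 hi x
        simp only [hs, Finset.mem_compl, Finset.mem_image, Finset.mem_univ, true_and,
          Finset.mem_singleton] at hx
        simp only [Set.mem_range, Set.mem_compl_iff, Set.mem_singleton_iff]
        tauto
      subst hf
      refine ⟨i, (hμd i).2 ?_, rfl⟩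
      have hdi := (hdet_ne i).1 hfd
      have h2 := hfg i (fun k => Fin.succAbove_ne i k)
      rw [hgap h i hdi] at h2
      exact (div_pos_iff_of_pos_left hpos).1 h2
    · rintro ⟨i, hi, rfl⟩
      have hdi : d i ≠ 0 := ((hμd i).1 hi).ne'
      refine ⟨Fin.strictMono_succAbove i, (hdet_ne i).2 hdi, fun l hl => ?_⟩
      have hli : l = i := by
        by_contra hne
        obtain ⟨k, hk⟩ := Fin.exists_succAbove_eq hne
        exact hl k hk
      subst hli
      rw [hgap h l hdi]
      exact div_pos hpos ((hμd l).1 hi)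
  obtain ⟨hdisj, hae⟩ := triangulation h1 hh
  obtain ⟨-, -, -, hJ, hS⟩ := decomposition_of h1 (F := goodSimplices G h) (fun f hf => by
    simp only [goodSimplices, Finset.mem_filter, Finset.mem_univ, true_and] at hf
    exact ⟨hf.1.injective, hf.2.1⟩) hdisj hae
  have hinjT : Set.InjOn (fun i : Fin (n + 2) => Fin.succAbove i) T := fun a _ b _ hab => by
    exact Fin.succAbove_left_injective hab
  rw [hgood, Finset.sum_image hinjT] at hJ hS
  set J₀ := √(R.det / D) with hJ₀
  have habs : ∀ i ∈ T, |(basisMat G (Fin.succAbove i)).det| = J₀ * μ i := by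
    intro i hi
    simp only [hT, Finset.mem_filter, Finset.mem_univ, true_and] at hi
    have hν0 : ν i = 0 := (mul_eq_zero.1 (hμν i)).resolve_left hi.ne'
    rw [← Real.sqrt_sq_eq_abs, hminor, hJ₀, show d i = μ i by simp [hd, hν0],
      show R.det * (μ i ^ 2 / D) = R.det / D * μ i ^ 2 by ring,
      Real.sqrt_mul' _ (sq_nonneg _), Real.sqrt_sq (hμ i)]
  have hTs : ∀ F : Fin (n + 2) → ℝ, ∑ i ∈ T, μ i * F i = ∑ i, μ i * F i := fun F => by
    refine Finset.sum_subset (Finset.subset_univ _) fun i _ hi => ?_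
    simp only [hT, Finset.mem_filter, Finset.mem_univ, true_and, not_lt] at hi
    rw [le_antisymm hi (hμ i), zero_mul]
  have hJ' : coneMass G = J₀ := by
    rw [hJ, Finset.sum_congr rfl habs, ← Finset.mul_sum]
    have h2 := hTs fun _ => 1
    simp only [mul_one, hμ1] at h2
    rw [h2, mul_one]
  set s : Fin (n + 1) → ℝ := ∑ i, G i with hs
  set q : Fin (n + 1) → ℝ := ∑ i, μ i • G i with hq
  set U : Matrix (Fin (n + 1)) (Fin 2) ℝ := Matrix.of fun j => ![s j, q j] with hU
  set K : Matrix (Fin 2) (Fin 2) ℝ := !![1, -1; -1, 0] with hK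
  have hS' : coneSecond G = J₀ • (R + U * K * Uᵀ) := by
    rw [hS, Finset.sum_congr rfl fun i hi => by rw [habs i hi]]
    ext j k
    simp only [Matrix.sum_apply, Matrix.smul_apply, Matrix.add_apply, vecMulVec_apply, smul_eq_mul,
      Finset.sum_apply]
    simp only [mul_assoc, ← Finset.mul_sum]
    congr 1
    rw [hTs]
    have eR : ∀ i, ∑ l : Fin (n + 1), G (Fin.succAbove i l) j * G (Fin.succAbove i l) k
        = R j k - G i j * G i k := fun i => by
      simp [hR, hB, Matrix.mul_apply, Fin.sum_univ_succAbove _ i]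
    have es : ∀ (i : Fin (n + 2)) (c : Fin (n + 1)), ∑ l : Fin (n + 1), G (Fin.succAbove i l) c
        = s c - G i c := fun i c => by
      simp [hs, Finset.sum_apply, Fin.sum_univ_succAbove _ i]
    have eU : (U * K * Uᵀ) j k = s j * s k - s j * q k - q j * s k := by
      simp [hU, hK, Matrix.mul_apply, Fin.sum_univ_two]
      ring
    have eq : ∀ c, ∑ i, μ i * G i c = q c := fun c => by simp [hq, Finset.sum_apply]
    simp only [eR, es, eU]
    calc ∑ i, μ i * (R j k - G i j * G i k + (s j - G i j) * (s k - G i k))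
        = ∑ i, (μ i * (R j k + s j * s k) - s j * (μ i * G i k) - (μ i * G i j) * s k) :=
          Finset.sum_congr rfl fun i _ => by ring
      _ = _ := by
          rw [Finset.sum_sub_distrib, Finset.sum_sub_distrib, ← Finset.sum_mul, hμ1,
            ← Finset.mul_sum, ← Finset.sum_mul, eq, eq]
          ring
  set e : Fin (n + 1) → ℝ := Pi.single 0 1 with he
  have hBe : B *ᵥ e = fun _ => 1 := by
    funext i; simp [hB, he, h1]
  have hsR : R⁻¹ *ᵥ s = e := by
    have h2 : R *ᵥ e = s := by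
      rw [hR, ← Matrix.mulVec_mulVec, hBe]
      funext j; simp [hB, hs, Matrix.mulVec, dotProduct, Finset.sum_apply]
    rw [← h2, Matrix.mulVec_mulVec, Matrix.nonsing_inv_mul _ hRu, Matrix.one_mulVec]
  have hqB : q = Bᵀ *ᵥ μ := by
    funext j; simp [hq, hB, Matrix.mulVec, dotProduct, Finset.sum_apply, mul_comm]
  have a11 : s ⬝ᵥ (R⁻¹ *ᵥ s) = (n : ℝ) + 2 := by
    rw [hsR]; simp [he, hs, Finset.sum_apply, h1]
  have a21 : q ⬝ᵥ (R⁻¹ *ᵥ s) = 1 := by
    rw [hsR]; simp [he, hq, Finset.sum_apply, h1, hμ1]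
  have a12 : s ⬝ᵥ (R⁻¹ *ᵥ q) = 1 := by
    rw [Matrix.dotProduct_mulVec, ← Matrix.mulVec_transpose, hRit, dotProduct_comm, a21]
  have a22 : q ⬝ᵥ (R⁻¹ *ᵥ q) = A * A' / D := by
    have e2 : q ⬝ᵥ (R⁻¹ *ᵥ q) = μ ⬝ᵥ (H *ᵥ μ) := by
      rw [hqB, hH, ← Matrix.mulVec_mulVec, ← Matrix.mulVec_mulVec]
      conv_rhs => rw [Matrix.dotProduct_mulVec, ← Matrix.mulVec_transpose]
    rw [e2, hHeq, Matrix.sub_mulVec, Matrix.one_mulVec, Matrix.smul_mulVec, dotProduct_sub,
      dotProduct_smul, Matrix.vecMulVec_mulVec, op_smul_eq_smul, dotProduct_smul,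
      show μ ⬝ᵥ μ = A by simp [hA, dotProduct, sq], show d ⬝ᵥ μ = A by rw [← hdμ]; rfl,
      show μ ⬝ᵥ d = A by rw [dotProduct_comm, ← hdμ]; rfl, smul_eq_mul, smul_eq_mul]
    field_simp
    rw [hDdef]
    ring
  have hW : ∀ a b : Fin 2, (Uᵀ * (R⁻¹ * U)) a b
      = (fun j => U j a) ⬝ᵥ (R⁻¹ *ᵥ fun j => U j b) := fun a b => by
    simp [Matrix.mul_apply, dotProduct, Matrix.mulVec]
  have hdetRU : (R + U * K * Uᵀ).det = R.det * (((n : ℝ) + 2) * (1 - A * A' / D)) := by
    have e2 : R + U * K * Uᵀ = R * (1 + R⁻¹ * U * (K * Uᵀ)) := by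
      rw [Matrix.mul_add, Matrix.mul_one, ← Matrix.mul_assoc R, ← Matrix.mul_assoc R,
        Matrix.mul_nonsing_inv _ hRu, Matrix.one_mul, Matrix.mul_assoc U]
    have c0 : (fun j => U j 0) = s := by funext j; simp [hU]
    have c1 : (fun j => U j 1) = q := by funext j; simp [hU]
    rw [e2, Matrix.det_mul, Matrix.det_one_add_mul_comm, Matrix.mul_assoc K, Matrix.det_fin_two]
    congr 1
    simp only [Matrix.add_apply, Matrix.mul_apply (M := K), Fin.sum_univ_two, hW, c0, c1, a11, a12,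
      a21, a22, Matrix.one_apply]
    simp [hK]
    ring
  have hRD : R.det = J₀ ^ 2 * D := by
    rw [hJ₀, Real.sq_sqrt (div_nonneg hRp.det_pos.le hD0.le)]
    field_simp
  rw [hS', Matrix.det_smul, hdetRU, Fintype.card_fin, hJ', hRD]
  field_simp
  rw [hDdef]
  ring

/-- The strong inequality with its equality case for hulls of one point more than a simplex. -/
theorem few_exact (v : Fin (n + 2) → Fin n → ℝ) (hn : 0 < n)
    (hfull : (interior (convexHull ℝ (range v))).Nonempty) :
    isoConst (convexHull ℝ (range v)) ≤ isoConst (stdSimplexBody n) ∧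
      (isoConst (convexHull ℝ (range v)) = isoConst (stdSimplexBody n) →
        ∃ i, v i ∈ convexHull ℝ (range fun k => v (Fin.succAbove i k))) := by
  classical
  set K := convexHull ℝ (range v) with hK
  have hKc : IsCompact K := (finite_range v).isCompact_convexHull ℝ
  have hV0 : 0 < (volume K).toReal := ENNReal.toReal_pos
    (lt_of_lt_of_le (isOpen_interior.measure_pos volume hfull) (measure_mono interior_subset)).ne'
    hKc.measure_lt_top.ne
  obtain ⟨A, hAhull, hfull', hcent, hAx⟩ := exists_centred v hfull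
  set w := fun i => A (v i) with hw
  obtain ⟨-, hinj, -, hJ0, hratio⟩ := centred_ratio w hfull' hcent
  obtain ⟨μ, ν, hμ, hν, hμν, hμ1, hν1, hdep⟩ := exists_dependence (G := lift w)
    fun i => by simp [lift]
  rw [coneSecond_det_exact (fun i => by simp [lift]) hinj hμ hν hμν hμ1 hdep,
    mul_div_cancel_left₀ _ (by positivity)] at hratio
  set X := ∑ i, μ i ^ 2 + ∑ i, ν i ^ 2 - (∑ i, μ i ^ 2) * ∑ i, ν i ^ 2 with hX
  have hle1 : ∀ (ρ : Fin (n + 2) → ℝ), (∀ i, 0 ≤ ρ i) → ∑ i, ρ i = 1 →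
      ∑ i, ρ i ^ 2 ≤ 1 ∧ (∑ i, ρ i ^ 2 = 1 → ∃ i, ρ i = 1) := by
    intro ρ hρ hρ1
    have hb : ∀ i, ρ i ≤ 1 := fun i =>
      (Finset.single_le_sum (fun k _ => hρ k) (Finset.mem_univ i)).trans hρ1.le
    have hsq : ∀ i, ρ i ^ 2 ≤ ρ i := fun i => by nlinarith [hρ i, hb i]
    refine ⟨(Finset.sum_le_sum fun i _ => hsq i).trans hρ1.le, fun he => ?_⟩
    have h0 := (Finset.sum_eq_sum_iff_of_le fun i _ => hsq i).1 (he.trans hρ1.symm)
    by_contra hc
    push Not at hc
    have : ∀ i, ρ i = 0 := fun i => by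
      have h2 : ρ i * (ρ i - 1) = 0 := by have := h0 i (Finset.mem_univ i); linarith
      exact (mul_eq_zero.1 h2).resolve_right (sub_ne_zero.2 (hc i))
    simp [this] at hρ1
  have hnn : ∀ ρ : Fin (n + 2) → ℝ, 0 ≤ ∑ i, ρ i ^ 2 := fun ρ =>
    Finset.sum_nonneg fun i _ => sq_nonneg _
  have hX1 : X ≤ 1 := by rw [hX]; nlinarith [(hle1 μ hμ hμ1).1, (hle1 ν hν hν1).1]
  have hX0 : 0 ≤ X := by rw [hX]; nlinarith [(hle1 μ hμ hμ1).1, hnn μ, hnn ν]
  set σ := (n ! : ℝ) ^ 2 / (((n : ℝ) + 1) ^ (n + 1) * ((n : ℝ) + 2) ^ n) with hσ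
  have hσ0 : 0 < σ := by positivity
  have hpow : (0 : ℝ) < 1 / (2 * n) := by
    have : (0 : ℝ) < n := by exact_mod_cast hn
    positivity
  have hiso : isoConst K = (X * σ) ^ ((1 : ℝ) / (2 * n)) := by
    rw [← isoConst_affine A hKc hV0, hAhull, isoConst, hratio]
  rw [hiso, isoConst, simplex_value]
  refine ⟨Real.rpow_le_rpow (mul_nonneg hX0 hσ0.le) (mul_le_of_le_one_left hσ0.le hX1) hpow.le,
    fun heq => ?_⟩
  have hXe : X = 1 := by
    by_contra hne
    exact (Real.rpow_lt_rpow (mul_nonneg hX0 hσ0.le)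
      (mul_lt_of_lt_one_left hσ0 (lt_of_le_of_ne hX1 hne)) hpow).ne heq
  have hfact : (1 - ∑ i, μ i ^ 2) * (1 - ∑ i, ν i ^ 2) = 0 := by rw [hX] at hXe; linarith
  have key : ∀ ρ τ : Fin (n + 2) → ℝ, (∀ i, 0 ≤ ρ i) → (∀ i, 0 ≤ τ i) → (∀ i, ρ i * τ i = 0) →
      ∑ i, τ i = 1 → ∑ i, ρ i = 1 → (∑ i, (ρ i - τ i) • lift w i = 0) → ∀ i, ρ i = 1 →
      v i ∈ convexHull ℝ (range fun k => v (Fin.succAbove i k)) := by
    intro ρ τ hρ hτ hρτ hτ1 hρ1 hdep' i hi
    have hτi : τ i = 0 := (mul_eq_zero.1 (hρτ i)).resolve_left (by rw [hi]; exact one_ne_zero)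
    have hρk : ∀ k, ρ (Fin.succAbove i k) = 0 := by
      have h0 : ∑ k : Fin (n + 1), ρ (Fin.succAbove i k) = 0 := by
        rw [Fin.sum_univ_succAbove _ i, hi] at hρ1; linarith
      exact fun k => (Finset.sum_eq_zero_iff_of_nonneg fun k _ => hρ _).1 h0 k (Finset.mem_univ k)
    have hτs : ∑ k : Fin (n + 1), τ (Fin.succAbove i k) = 1 := by
      rw [Fin.sum_univ_succAbove _ i, hτi, zero_add] at hτ1; exact hτ1
    have hwi : w i = ∑ k : Fin (n + 1), τ (Fin.succAbove i k) • w (Fin.succAbove i k) := by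
      funext j
      have h0 := congrFun hdep' j.succ
      rw [Finset.sum_apply, Fin.sum_univ_succAbove _ i] at h0
      simp [lift, hi, hτi, hρk] at h0
      simp only [Finset.sum_apply, Pi.smul_apply, smul_eq_mul]
      linarith
    refine (mem_convexHull_iff _ _).2 ⟨fun k => τ (Fin.succAbove i k), fun k => hτ _, hτs, ?_⟩
    refine A.injective ?_
    rw [show A (v i) = w i from rfl, hwi, hAx]
    simp only [hw, hAx, smul_add, Finset.sum_add_distrib, ← Finset.sum_smul, hτs, one_smul]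
  rcases mul_eq_zero.1 hfact with h | h
  · obtain ⟨i, hi⟩ := (hle1 μ hμ hμ1).2 (sub_eq_zero.1 h).symm
    exact ⟨i, key μ ν hμ hν hμν hν1 hμ1 hdep i hi⟩
  · obtain ⟨i, hi⟩ := (hle1 ν hν hν1).2 (sub_eq_zero.1 h).symm
    refine ⟨i, key ν μ hν hμ (fun k => by rw [mul_comm, hμν]) hμ1 hν1 ?_ i hi⟩
    rw [← neg_eq_zero, ← Finset.sum_neg_distrib]
    simpa [← neg_smul] using hdep

/-- A full-dimensional hull of `n + 1` points is an affine image of the standard simplex. -/
lemma hull_eq_affine_simplex (w : Fin (n + 1) → Fin n → ℝ)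
    (hfull : (interior (convexHull ℝ (range w))).Nonempty) :
    ∃ B : (Fin n → ℝ) ≃ᵃ[ℝ] (Fin n → ℝ), convexHull ℝ (range w) = B '' stdSimplexBody n := by
  classical
  set L : (Fin n → ℝ) →ₗ[ℝ] (Fin n → ℝ) :=
    ∑ j : Fin n, (LinearMap.proj j).smulRight (w j.succ - w 0) with hL
  have hLx : ∀ x, L x = ∑ j : Fin n, x j • (w j.succ - w 0) := fun x => by simp [hL]
  have hsub : convexHull ℝ (range w) ⊆ (fun z => w 0 + z) '' (LinearMap.range L : Set (Fin n → ℝ)) := by
    refine convexHull_min ?_ ?_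
    · rintro _ ⟨i, rfl⟩
      refine Fin.cases ?_ (fun j => ?_) i
      · exact ⟨0, Submodule.zero_mem _, by simp⟩
      · refine ⟨w j.succ - w 0, ⟨Pi.single j 1, ?_⟩, by simp⟩
        rw [hLx]
        simp [Pi.single_apply, ite_smul]
    · exact (Submodule.convex _).translate _
  have hint : (interior (LinearMap.range L : Set (Fin n → ℝ))).Nonempty := by
    obtain ⟨x, hx⟩ := hfull
    have h2 := interior_mono hsub hx
    have e : (fun z : Fin n → ℝ => w 0 + z) = Homeomorph.addLeft (w 0) := rfl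
    rw [e, ← Homeomorph.image_interior] at h2
    obtain ⟨y, hy, -⟩ := h2
    exact ⟨y, hy⟩
  have hsurj : Function.Surjective L :=
    LinearMap.range_eq_top.1 (Submodule.eq_top_of_nonempty_interior' _ hint)
  have hbij : Function.Bijective L := ⟨LinearMap.injective_iff_surjective.2 hsurj, hsurj⟩
  set B : (Fin n → ℝ) ≃ᵃ[ℝ] (Fin n → ℝ) :=
    (LinearEquiv.ofBijective L hbij).toAffineEquiv.trans (AffineEquiv.constVAdd ℝ (Fin n → ℝ) (w 0))
    with hB
  have hBx : ∀ x, B x = w 0 + L x := fun x => rfl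
  refine ⟨B, ?_⟩
  have e : (B : (Fin n → ℝ) → Fin n → ℝ)
      '' (insert 0 (range fun i : Fin n => (Pi.single i 1 : Fin n → ℝ))) = range w := by
    rw [image_insert_eq, ← range_comp, hBx, map_zero, add_zero]
    ext z
    simp only [mem_insert_iff, mem_range, Function.comp_apply, hBx, hLx, Pi.single_apply, ite_smul,
      one_smul, zero_smul, Finset.sum_ite_eq', Finset.mem_univ, if_true, add_sub_cancel]
    constructor
    · rintro (rfl | ⟨j, rfl⟩)
      · exact ⟨0, rfl⟩
      · exact ⟨j.succ, rfl⟩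
    · rintro ⟨i, rfl⟩
      refine Fin.cases ?_ (fun j => ?_) i
      · exact Or.inl rfl
      · exact Or.inr ⟨j, rfl⟩
  rw [stdSimplexBody, ← e]
  exact (B.toAffineMap.image_convexHull _).symm

theorem few_exact_simplex (v : Fin (n + 2) → Fin n → ℝ) (hn : 0 < n)
    (hfull : (interior (convexHull ℝ (range v))).Nonempty) :
    isoConst (convexHull ℝ (range v)) ≤ isoConst (stdSimplexBody n) ∧
      (isoConst (convexHull ℝ (range v)) = isoConst (stdSimplexBody n) →
        ∃ B : (Fin n → ℝ) ≃ᵃ[ℝ] (Fin n → ℝ), convexHull ℝ (range v) = B '' stdSimplexBody n) := by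
  obtain ⟨h, heq⟩ := few_exact v hn hfull
  refine ⟨h, fun he => ?_⟩
  obtain ⟨i, hi⟩ := heq he
  have e : convexHull ℝ (range v) = convexHull ℝ (range fun k => v (Fin.succAbove i k)) := by
    refine subset_antisymm (convexHull_min ?_ (convex_convexHull ℝ _))
      (convexHull_mono (range_comp_subset_range _ v))
    rintro _ ⟨l, rfl⟩
    rcases Fin.eq_self_or_eq_succAbove i l with rfl | ⟨k, rfl⟩
    · exact hi
    · exact subset_convexHull ℝ _ ⟨k, rfl⟩
  rw [e]
  exact hull_eq_affine_simplex _ (e ▸ hfull)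

end Vale.Agent.P254.FewFacets.Vertices
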