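import Mathlib

/-!
A regular triangulation of the cone over finitely many points in an affine hyperplane.
-/

noncomputable section

open MeasureTheory Set Matrix

namespace Vale.Agent.P254.FewFacets.Vertices

variable {n N : ℕ}

/-- The matrix whose columns are the selected points. -/
def basisMat (G : Fin N → Fin (n + 1) → ℝ) (f : Fin (n + 1) → Fin N) :
    Matrix (Fin (n + 1)) (Fin (n + 1)) ℝ :=
  Matrix.of fun j i => G (f i) j

/-- The open simplicial cone on the selected points. -/
def simpCone (G : Fin N → Fin (n + 1) → ℝ) (f : Fin (n + 1) → Fin N) : Set (Fin (n + 1) → ℝ) :=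
  (fun y => basisMat G f *ᵥ y) '' {y | ∀ i, 0 < y i}

/-- The cone of nonnegative combinations of the points. -/
def posHull (G : Fin N → Fin (n + 1) → ℝ) : Set (Fin (n + 1) → ℝ) :=
  {z | ∃ t : Fin N → ℝ, (∀ i, 0 ≤ t i) ∧ z = ∑ i, t i • G i}

variable {G : Fin N → Fin (n + 1) → ℝ}

lemma basisMat_mulVec (f : Fin (n + 1) → Fin N) (y : Fin (n + 1) → ℝ) :
    basisMat G f *ᵥ y = ∑ i, y i • G (f i) := by
  funext j
  simp [basisMat, Matrix.mulVec, dotProduct, Finset.sum_apply, mul_comm]

lemma simpCone_subset (f : Fin (n + 1) → Fin N) : simpCone G f ⊆ posHull G := by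
  rintro _ ⟨y, hy, rfl⟩
  refine ⟨fun l => ∑ i, if f i = l then y i else 0,
    fun l => Finset.sum_nonneg fun i _ => by split <;> linarith [hy i], ?_⟩
  simp only [basisMat_mulVec, Finset.sum_smul, ite_smul, zero_smul]
  rw [Finset.sum_comm]
  simp

lemma isOpen_simpCone {f : Fin (n + 1) → Fin N} (hf : (basisMat G f).det ≠ 0) :
    IsOpen (simpCone G f) := by
  have hu : IsUnit (basisMat G f).det := hf.isUnit
  have e : simpCone G f = (fun z => (basisMat G f)⁻¹ *ᵥ z) ⁻¹' {y | ∀ i, 0 < y i} := by
    ext z
    constructor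
    · rintro ⟨y, hy, rfl⟩
      simpa [Matrix.nonsing_inv_mul _ hu] using hy
    · intro hz
      exact ⟨_, hz, by simp [Matrix.mul_nonsing_inv _ hu]⟩
  rw [e]
  refine IsOpen.preimage (by fun_prop) ?_
  simp only [ofPred_forall]
  exact isOpen_iInter_of_finite fun i => isOpen_lt continuous_const (continuous_apply i)

/-- Coordinates of a point in a basis of points. -/
def coords (G : Fin N → Fin (n + 1) → ℝ) (f : Fin (n + 1) → Fin N) (z : Fin (n + 1) → ℝ) :
    Fin (n + 1) → ℝ :=
  (basisMat G f)⁻¹ *ᵥ z

lemma coords_spec {f : Fin (n + 1) → Fin N} (hf : (basisMat G f).det ≠ 0) (z : Fin (n + 1) → ℝ) :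
    ∑ i, coords G f z i • G (f i) = z := by
  rw [← basisMat_mulVec, coords, Matrix.mulVec_mulVec, Matrix.mul_nonsing_inv _ hf.isUnit,
    Matrix.one_mulVec]

lemma coords_unique {f : Fin (n + 1) → Fin N} (hf : (basisMat G f).det ≠ 0)
    (y : Fin (n + 1) → ℝ) : coords G f (∑ i, y i • G (f i)) = y := by
  rw [coords, ← basisMat_mulVec, Matrix.mulVec_mulVec, Matrix.nonsing_inv_mul _ hf.isUnit,
    Matrix.one_mulVec]

/-- The height gap of a point above the affine function of a basis. -/
def gap (G : Fin N → Fin (n + 1) → ℝ) (f : Fin (n + 1) → Fin N) (l : Fin N) (h : Fin N → ℝ) : ℝ :=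
  h l - ∑ i, h (f i) * coords G f (G l) i

lemma null_gap {f : Fin (n + 1) → Fin N} {l : Fin N} (hl : ∀ i, f i ≠ l) :
    volume {h : Fin N → ℝ | gap G f l h = 0} = 0 := by
  classical
  let L : (Fin N → ℝ) →ₗ[ℝ] ℝ := LinearMap.proj l -
    ∑ i, (coords G f (G l) i) • LinearMap.proj (f i)
  have e : {h : Fin N → ℝ | gap G f l h = 0} = (LinearMap.ker L : Submodule ℝ (Fin N → ℝ)) := by
    ext h; simp [L, gap, mul_comm]
  rw [e]
  refine Measure.addHaar_submodule _ _ fun htop => ?_
  have hmem : (Pi.single l 1 : Fin N → ℝ) ∈ LinearMap.ker L := htop ▸ Submodule.mem_top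
  simp [L, hl] at hmem

lemma exists_heights (G : Fin N → Fin (n + 1) → ℝ) :
    ∃ h : Fin N → ℝ, ∀ f : Fin (n + 1) → Fin N, ∀ l, (∀ i, f i ≠ l) → gap G f l h ≠ 0 := by
  have hnull : volume (⋃ (f : Fin (n + 1) → Fin N) (l : Fin N) (_ : ∀ i, f i ≠ l),
      {h : Fin N → ℝ | gap G f l h = 0}) = 0 :=
    measure_iUnion_null fun f => measure_iUnion_null fun l => measure_iUnion_null fun hl =>
      null_gap hl
  by_contra hc
  push Not at hc
  have huniv : (univ : Set (Fin N → ℝ)) ⊆ ⋃ (f : Fin (n + 1) → Fin N) (l : Fin N)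
      (_ : ∀ i, f i ≠ l), {h : Fin N → ℝ | gap G f l h = 0} := fun h _ => by
    obtain ⟨f, l, hl, hg⟩ := hc h
    simp only [mem_iUnion]
    exact ⟨f, l, hl, hg⟩
  exact (isOpen_univ.measure_pos volume ⟨0, trivial⟩).ne' (measure_mono_null huniv hnull)

/-- Degenerate points: combinations of at most `n` of the points. -/
def degenerate (G : Fin N → Fin (n + 1) → ℝ) : Set (Fin (n + 1) → ℝ) :=
  ⋃ (s : Finset (Fin N)) (_ : s.card ≤ n), (Submodule.span ℝ (G '' s) : Set (Fin (n + 1) → ℝ))

lemma null_degenerate : volume (degenerate G) = 0 := by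
  classical
  refine measure_iUnion_null fun s => measure_iUnion_null fun hs => ?_
  refine Measure.addHaar_submodule _ _ fun htop => ?_
  have h1 := finrank_span_le_card (R := ℝ) (G '' (s : Set (Fin N)))
  rw [htop, finrank_top, Module.finrank_fin_fun] at h1
  have h2 : (G '' (s : Set (Fin N))).toFinset.card ≤ s.card := by
    rw [show (G '' (s : Set (Fin N))).toFinset = s.image G by ext; simp]
    exact Finset.card_image_le
  omega

lemma pos_of_notMem_degenerate {f : Fin (n + 1) → Fin N}
    {y : Fin (n + 1) → ℝ} (hy : ∀ i, 0 ≤ y i) {z : Fin (n + 1) → ℝ}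
    (hz : z = ∑ i, y i • G (f i)) (hzd : z ∉ degenerate G) : ∀ i, 0 < y i := by
  classical
  intro i₀
  refine lt_of_le_of_ne (hy i₀) fun h0 => hzd ?_
  simp only [degenerate, mem_iUnion]
  refine ⟨(Finset.univ.erase i₀).image f, Finset.card_image_le.trans (by simp), ?_⟩
  rw [hz, ← Finset.add_sum_erase _ _ (Finset.mem_univ i₀), ← h0, zero_smul, zero_add]
  refine Submodule.sum_mem _ fun i hi => Submodule.smul_mem _ _ (Submodule.subset_span ?_)
  exact ⟨f i, by simp only [Finset.coe_image]; exact ⟨i, hi, rfl⟩, rfl⟩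

lemma exists_basis_rep (h1 : ∀ i, G i 0 = 1) {z : Fin (n + 1) → ℝ} (hz : z ∈ posHull G)
    (hzd : z ∉ degenerate G) :
    ∃ f : Fin (n + 1) → Fin N, StrictMono f ∧ (basisMat G f).det ≠ 0 ∧ z ∈ simpCone G f := by
  classical
  obtain ⟨t, ht, rfl⟩ := hz
  have hne0 : (∑ i, t i • G i) ≠ 0 := fun h0 => hzd (by
    rw [h0]; simp only [degenerate, mem_iUnion]
    exact ⟨∅, by simp, Submodule.zero_mem _⟩)
  set τ := ∑ i, t i with hτ
  have hτ0 : 0 < τ := by
    refine lt_of_le_of_ne (Finset.sum_nonneg fun i _ => ht i) fun h0 => hne0 ?_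
    have := (Finset.sum_eq_zero_iff_of_nonneg fun i _ => ht i).1 h0.symm
    exact Finset.sum_eq_zero fun i hi => by rw [this i hi, zero_smul]
  have hx : τ⁻¹ • ∑ i, t i • G i ∈ convexHull ℝ (range G) := by
    rw [Finset.smul_sum]
    simp only [smul_smul]
    refine (convex_convexHull ℝ _).sum_mem (fun i _ => mul_nonneg (inv_nonneg.2 hτ0.le) (ht i)) ?_
      fun i _ => subset_convexHull ℝ _ ⟨i, rfl⟩
    rw [← Finset.mul_sum, ← hτ, inv_mul_cancel₀ hτ0.ne']
  obtain ⟨ι, hι, z, w, hzr, hind, hw, hw1, hwz⟩ := eq_pos_convex_span_of_mem_convexHull hx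
  choose g hg using fun i => hzr ⟨i, rfl⟩
  have hginj : Function.Injective g := fun a b h => hind.injective (by rw [← hg a, ← hg b, h])
  set s := (Finset.univ : Finset ι).image g with hs
  have hcard : s.card = Fintype.card ι := by
    rw [hs, Finset.card_image_of_injective _ hginj, Finset.card_univ]
  have hli : LinearIndependent ℝ fun i => G (g i) := by
    rw [Fintype.linearIndependent_iff]
    intro c hc
    have h0 : ∑ i, c i = 0 := by simpa [Finset.sum_apply, h1] using congrFun hc 0
    exact fun i => (affineIndependent_iff.1 hind) Finset.univ c h0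
      (by simpa [hg] using hc) i (Finset.mem_univ i)
  have hbig : n + 1 ≤ Fintype.card ι := by
    by_contra hlt
    refine hzd ?_
    simp only [degenerate, mem_iUnion]
    refine ⟨s, by omega, ?_⟩
    have : (∑ i, t i • G i) = ∑ i, (τ * w i) • G (g i) := by
      simp only [← smul_smul, ← Finset.smul_sum, hg, hwz, smul_inv_smul₀ hτ0.ne']
    rw [this]
    exact Submodule.sum_mem _ fun i _ => Submodule.smul_mem _ _
      (Submodule.subset_span ⟨g i, by simp [hs], rfl⟩)
  have hsmall : Fintype.card ι ≤ n + 1 := by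
    simpa [Module.finrank_fin_fun] using hli.fintype_card_le_finrank
  have hsc : s.card = n + 1 := by omega
  set f : Fin (n + 1) → Fin N := fun i => s.orderEmbOfFin hsc i with hf
  have hfs : ∀ i, ∃ a, g a = f i := fun i => by
    obtain ⟨a, -, ha⟩ := Finset.mem_image.1 (s.orderEmbOfFin_mem hsc i)
    exact ⟨a, ha⟩
  choose σ hσ using hfs
  have hσb : Function.Bijective σ := by
    refine (Fintype.bijective_iff_injective_and_card σ).2 ⟨fun a b h => ?_, by
      rw [Fintype.card_fin]; omega⟩
    have := congrArg g h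
    rw [hσ, hσ] at this
    exact (s.orderEmbOfFin hsc).injective this
  refine ⟨f, (s.orderEmbOfFin hsc).strictMono, ?_, fun i => τ * w (σ i), fun i => mul_pos hτ0 (hw _), ?_⟩
  · have hliF : LinearIndependent ℝ fun i => G (f i) := by
      have := hli.comp σ hσb.1
      simpa only [Function.comp_def, hσ] using this
    have hcols : LinearIndependent ℝ (basisMat G f).col := hliF
    exact ((Matrix.linearIndependent_cols_iff_isUnit.1 hcols).map Matrix.detMonoidHom).ne_zero
  · calc basisMat G f *ᵥ (fun i => τ * w (σ i)) = ∑ a, (τ * w a) • G (g a) := by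
          rw [basisMat_mulVec]
          refine Fintype.sum_bijective σ hσb _ _ fun i => ?_
          rw [hσ]
      _ = _ := by simp only [← smul_smul, ← Finset.smul_sum, hg, hwz, smul_inv_smul₀ hτ0.ne']

/-- The good simplices of a height function. -/
def goodSimplices (G : Fin N → Fin (n + 1) → ℝ) (h : Fin N → ℝ) :
    Finset (Fin (n + 1) → Fin N) := by
  classical
  exact Finset.univ.filter fun f => StrictMono f ∧ (basisMat G f).det ≠ 0 ∧
    ∀ l, (∀ i, f i ≠ l) → 0 < gap G f l h

lemma cost_expand {f : Fin (n + 1) → Fin N} {g : Fin (n + 1) → Fin N}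
    (_hf : (basisMat G f).det ≠ 0) (h : Fin N → ℝ) (y : Fin (n + 1) → ℝ) :
    ∑ k, y k * h (g k) - ∑ i, coords G f (∑ k, y k • G (g k)) i * h (f i)
      = ∑ k, y k * gap G f (g k) h := by
  have e : coords G f (∑ k, y k • G (g k)) = ∑ k, y k • coords G f (G (g k)) := by
    simp only [coords, Matrix.mulVec_sum, Matrix.mulVec_smul]
  rw [e]
  simp only [gap, Finset.sum_apply, Pi.smul_apply, smul_eq_mul, mul_sub, Finset.sum_sub_distrib,
    Finset.sum_mul, Finset.mul_sum]
  congr 1
  rw [Finset.sum_comm]
  exact Finset.sum_congr rfl fun k _ => Finset.sum_congr rfl fun i _ => by ring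

theorem triangulation (h1 : ∀ i, G i 0 = 1) {h : Fin N → ℝ}
    (hh : ∀ f : Fin (n + 1) → Fin N, ∀ l, (∀ i, f i ≠ l) → gap G f l h ≠ 0) :
    Set.PairwiseDisjoint (goodSimplices G h : Set (Fin (n + 1) → Fin N)) (simpCone G) ∧
      (⋃ f ∈ goodSimplices G h, simpCone G f) =ᵐ[volume] posHull G := by
  classical
  have hmem : ∀ f, f ∈ goodSimplices G h ↔ StrictMono f ∧ (basisMat G f).det ≠ 0 ∧
      ∀ l, (∀ i, f i ≠ l) → 0 < gap G f l h := fun f => by simp [goodSimplices]
  have hgap0 : ∀ f, (basisMat G f).det ≠ 0 → ∀ i, gap G f (f i) h = 0 := by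
    intro f hf i
    have := coords_unique hf (Pi.single i 1 : Fin (n + 1) → ℝ)
    simp only [Pi.single_apply, ite_smul, one_smul, zero_smul, Finset.sum_ite_eq', Finset.mem_univ,
      if_true] at this
    simp [gap, this, Pi.single_apply]
  have hle : ∀ f ∈ goodSimplices G h, ∀ l, 0 ≤ gap G f l h := by
    intro f hf l
    by_cases hl : ∀ i, f i ≠ l
    · exact (((hmem f).1 hf).2.2 l hl).le
    · push Not at hl
      obtain ⟨i, rfl⟩ := hl
      rw [hgap0 f ((hmem f).1 hf).2.1 i]
  constructor
  · intro f hf g hg hfg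
    rw [Function.onFun, Set.disjoint_left]
    intro z hzf hzg
    simp only [simpCone, mem_image, mem_ofPred_eq, basisMat_mulVec] at hzf hzg
    obtain ⟨y, hy, hyz⟩ := hzf
    obtain ⟨x, hx, hxz⟩ := hzg
    obtain ⟨hfm, hfd, hfgap⟩ := (hmem f).1 hf
    obtain ⟨hgm, hgd, -⟩ := (hmem g).1 hg
    have c1 : coords G f z = y := by rw [← hyz, coords_unique hfd]
    have c2 : coords G g z = x := by rw [← hxz, coords_unique hgd]
    have e1 := cost_expand (g := g) hfd h x
    have e2 := cost_expand (g := f) hgd h y
    rw [hxz, c1] at e1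
    rw [hyz, c2] at e2
    have hk : ∃ k, ∀ i, f i ≠ g k := by
      by_contra hc
      push Not at hc
      choose π hπ using hc
      have hπi : Function.Injective π := fun a b hab => hgm.injective (by rw [← hπ a, ← hπ b, hab])
      have hπs := Finite.injective_iff_surjective.1 hπi
      refine hfg ((hfm.range_inj hgm).1 ?_)
      ext v
      constructor
      · rintro ⟨i, rfl⟩; obtain ⟨k, rfl⟩ := hπs i; exact ⟨k, (hπ k).symm⟩
      · rintro ⟨k, rfl⟩; exact ⟨π k, hπ k⟩
    obtain ⟨k₀, hk₀⟩ := hk
    have p1 : 0 < ∑ k, x k * gap G f (g k) h :=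
      Finset.sum_pos' (fun k _ => mul_nonneg (hx k).le (hle f hf _))
        ⟨k₀, Finset.mem_univ _, mul_pos (hx k₀) (hfgap _ hk₀)⟩
    have p2 : 0 ≤ ∑ k, y k * gap G g (f k) h :=
      Finset.sum_nonneg fun k _ => mul_nonneg (hy k).le (hle g hg _)
    linarith
  · refine Filter.eventuallyEq_set.2 ?_
    filter_upwards [measure_eq_zero_iff_ae_notMem.1 (null_degenerate (G := G))] with z hzd
    refine ⟨fun hz => ?_, fun hz => ?_⟩
    · simp only [mem_iUnion] at hz
      obtain ⟨f, -, hf⟩ := hz
      exact simpCone_subset f hf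
    · simp only [mem_iUnion]
      set T := (Finset.univ : Finset (Fin (n + 1) → Fin N)).filter
        fun f => (basisMat G f).det ≠ 0 ∧ z ∈ simpCone G f with hT
      obtain ⟨f₀, hf₀m, hf₀d, hf₀z⟩ := exists_basis_rep h1 hz hzd
      obtain ⟨f, hfT, hmin⟩ := T.exists_min_image (fun f => ∑ i, coords G f z i * h (f i))
        ⟨f₀, by simp [hT, hf₀d, hf₀z]⟩
      simp only [hT, Finset.mem_filter, Finset.mem_univ, true_and] at hfT hmin
      obtain ⟨hfd, y, hy, hyz⟩ := hfT
      simp only [basisMat_mulVec] at hyz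
      have cz : coords G f z = y := by rw [← hyz, coords_unique hfd]
      have hfi : Function.Injective f := by
        intro a b hab
        by_contra hne
        exact hfd (Matrix.det_zero_of_column_eq hne fun j => by simp [basisMat, hab])
      have hgapnn : ∀ l, (∀ i, f i ≠ l) → 0 < gap G f l h := by
        intro l hl
        by_contra hneg
        have hlt : gap G f l h < 0 := lt_of_le_of_ne (not_lt.1 hneg) (hh f l hl)
        set c := coords G f (G l) with hc
        have hcG : ∑ i, c i • G (f i) = G l := coords_spec hfd _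
        have hcsum : ∑ i, c i = 1 := by
          have := congrFun hcG 0
          simpa [Finset.sum_apply, h1] using this
        set P := (Finset.univ : Finset (Fin (n + 1))).filter fun i => 0 < c i
        have hP : P.Nonempty := by
          by_contra hPe
          have : ∑ i, c i ≤ 0 := Finset.sum_nonpos fun i _ => not_lt.1 fun hi =>
            hPe ⟨i, by simp [P, hi]⟩
          linarith
        obtain ⟨i₀, hi₀P, hi₀⟩ := P.exists_min_image (fun i => y i / c i) hP
        have hci₀ : 0 < c i₀ := by simpa [P] using hi₀P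
        set ε := y i₀ / c i₀ with hε
        have hε0 : 0 < ε := div_pos (hy i₀) hci₀
        set f' : Fin (n + 1) → Fin N := Function.update f i₀ l with hf'
        set y' : Fin (n + 1) → ℝ := Function.update (fun i => y i - ε * c i) i₀ ε with hy'
        have hy'nn : ∀ i, 0 ≤ y' i := by
          intro i
          rcases eq_or_ne i i₀ with rfl | hi
          · simp [hy', hε0.le]
          rw [hy', Function.update_of_ne hi, sub_nonneg]
          by_cases hcp : 0 < c i
          · exact (le_div_iff₀ hcp).1 (hi₀ i (by simp [P, hcp]))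
          · exact (mul_nonpos_of_nonneg_of_nonpos hε0.le (not_lt.1 hcp)).trans (hy i).le
        have hcancel : y i₀ - ε * c i₀ = 0 := by rw [hε]; field_simp; ring
        have hz' : z = ∑ i, y' i • G (f' i) := by
          have e : ∀ i, y' i • G (f' i)
              = (y i - ε * c i) • G (f i) + (if i = i₀ then ε • G l else 0) := by
            intro i
            rcases eq_or_ne i i₀ with rfl | hi
            · simp [hy', hf', hcancel]
            · simp [hy', hf', hi]
          simp only [e, sub_smul, ← smul_smul, Finset.sum_add_distrib, Finset.sum_sub_distrib,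
            ← Finset.smul_sum, hcG, hyz, Finset.sum_ite_eq', Finset.mem_univ, if_true]
          abel
        have hy'pos := pos_of_notMem_degenerate hy'nn hz' hzd
        have hf'd : (basisMat G f').det ≠ 0 := by
          have e : basisMat G f' = (basisMat G f).updateCol i₀ (G l) := by
            ext j i
            rcases eq_or_ne i i₀ with rfl | hi
            · simp [basisMat, hf']
            · simp [basisMat, hf', Matrix.updateCol_ne hi, Function.update_of_ne hi]
          have h2 : G l = fun j => ∑ i, c i • basisMat G f j i := by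
            funext j
            rw [← hcG]
            simp [basisMat, Finset.sum_apply]
          rw [e, h2, Matrix.det_updateCol_sum, smul_eq_mul]
          exact mul_ne_zero hci₀.ne' hfd
        have hf'z : z ∈ simpCone G f' := ⟨y', hy'pos, by simp only [basisMat_mulVec]; exact hz'.symm⟩
        have hcmp := hmin f' ⟨hf'd, hf'z⟩
        have e1 := cost_expand (g := f') hfd h y'
        rw [← hz'] at e1
        have c' : coords G f' z = y' := by rw [hz', coords_unique hf'd]
        rw [c'] at hcmp
        have e2 : ∑ k, y' k * gap G f (f' k) h = ε * gap G f l h := by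
          rw [Finset.sum_eq_single i₀]
          · simp [hy', hf']
          · intro i _ hi
            simp only [hf', Function.update_of_ne hi, hgap0 f hfd, mul_zero]
          · simp
        nlinarith [mul_neg_of_pos_of_neg hε0 hlt]
      set s := (Finset.univ : Finset (Fin (n + 1))).image f
      have hsc : s.card = n + 1 := by simp [s, Finset.card_image_of_injective _ hfi]
      set f₁ : Fin (n + 1) → Fin N := fun i => s.orderEmbOfFin hsc i with hf₁
      have hperm : ∀ i, ∃ a, f a = f₁ i := fun i => by
        obtain ⟨a, -, ha⟩ := Finset.mem_image.1 (s.orderEmbOfFin_mem hsc i)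
        exact ⟨a, ha⟩
      choose π hπ using hperm
      have hπi : Function.Injective π := fun a b hab =>
        (s.orderEmbOfFin hsc).injective (show f₁ a = f₁ b by rw [← hπ a, ← hπ b, hab])
      set σ := Equiv.ofBijective π ⟨hπi, Finite.injective_iff_surjective.1 hπi⟩
      have hfσ : ∀ i, f (σ i) = f₁ i := hπ
      have hB : basisMat G f₁ = (basisMat G f).submatrix id σ := by
        ext j i; simp [basisMat, hfσ]
      have hf₁d : (basisMat G f₁).det ≠ 0 := by
        rw [hB, Matrix.det_permute' σ]
        exact mul_ne_zero (by simp) hfd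
      refine ⟨f₁, (hmem f₁).2 ⟨(s.orderEmbOfFin hsc).strictMono, hf₁d, fun l hl => ?_⟩,
        fun i => y (σ i), fun i => hy _, ?_⟩
      · have hl' : ∀ i, f i ≠ l := fun i hi => hl (σ.symm i) (by
          rw [← hfσ, σ.apply_symm_apply]; exact hi)
        have hco : coords G f₁ (G l) = fun i => coords G f (G l) (σ i) := by
          have e : ∑ i, coords G f (G l) (σ i) • G (f₁ i) = G l := by
            simp only [← hfσ]
            rw [Equiv.sum_comp σ (fun i => coords G f (G l) i • G (f i)), coords_spec hfd]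
          conv_lhs => rw [← e]
          rw [coords_unique hf₁d]
        have : gap G f₁ l h = gap G f l h := by
          simp only [gap, hco, ← hfσ]
          rw [Equiv.sum_comp σ (fun i => h (f i) * coords G f (G l) i)]
        rw [this]
        exact hgapnn l hl'
      · simp only [basisMat_mulVec, ← hfσ]
        rw [Equiv.sum_comp σ (fun i => y i • G (f i)), hyz]

lemma exists_triangulation (h1 : ∀ i, G i 0 = 1) :
    ∃ F : Finset (Fin (n + 1) → Fin N),
      (∀ f ∈ F, Function.Injective f ∧ (basisMat G f).det ≠ 0) ∧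
      Set.PairwiseDisjoint (F : Set (Fin (n + 1) → Fin N)) (simpCone G) ∧
      (⋃ f ∈ F, simpCone G f) =ᵐ[volume] posHull G := by
  classical
  obtain ⟨h, hh⟩ := exists_heights G
  refine ⟨goodSimplices G h, fun f hf => ?_, triangulation h1 hh⟩
  simp only [goodSimplices, Finset.mem_filter, Finset.mem_univ, true_and] at hf
  exact ⟨hf.1.injective, hf.2.1⟩

end Vale.Agent.P254.FewFacets.Vertices
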