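import Vale.Agent.P254.FewFacets.Section
import Vale.Agent.P254.FewFacets.Det
import Vale.Agent.P254.FewFacets.Vertices.Triangulation

/-!
Second moments of the exponential measure on a cone through its triangulation, and the determinant bound.
-/

noncomputable section

open MeasureTheory Set Matrix

namespace Vale.Agent.P254.FewFacets.Vertices

variable {n N : ℕ} {G : Fin N → Fin (n + 1) → ℝ}

lemma expProd_raw_moment (i l : Fin N) :
    Integrable (fun y : Fin N → ℝ => expProd y * (y i * y l)) ∧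
      ∫ y : Fin N → ℝ, expProd y * (y i * y l) = 1 + (if i = l then 1 else 0) := by
  obtain ⟨⟨i0, v0⟩, h1, h2⟩ := expProd_moments (N := N)
  have e : (fun y : Fin N → ℝ => expProd y * (y i * y l))
      = fun y => (expProd y * ((y i - 1) * (y l - 1)) + expProd y * (y i - 1))
        + (expProd y * (y l - 1) + expProd y) := by
    funext y; ring
  have ia : Integrable fun y : Fin N → ℝ =>
      expProd y * ((y i - 1) * (y l - 1)) + expProd y * (y i - 1) := (h2 i l).1.add (h1 i).1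
  have ib : Integrable fun y : Fin N → ℝ => expProd y * (y l - 1) + expProd y := (h1 l).1.add i0
  rw [e]
  refine ⟨ia.add ib, ?_⟩
  rw [integral_add ia ib, integral_add (h2 i l).1 (h1 i).1, integral_add (h1 l).1 i0, (h2 i l).2,
    (h1 i).2, (h1 l).2, v0]
  ring

lemma orthant_eq (g : (Fin N → ℝ) → ℝ) :
    {y : Fin N → ℝ | ∀ i, 0 < y i}.indicator (fun y => Real.exp (-∑ i, y i) * g y)
      = fun y => expProd y * g y := by
  funext y
  by_cases hy : ∀ i, 0 < y i
  · rw [indicator_of_mem (show y ∈ {y : Fin N → ℝ | ∀ i, 0 < y i} from hy), expProd_of_pos hy]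
  · rw [indicator_of_notMem (show y ∉ {y : Fin N → ℝ | ∀ i, 0 < y i} from hy),
      expProd_of_not_pos hy, zero_mul]

lemma measurableSet_orthant : MeasurableSet {y : Fin N → ℝ | ∀ i, 0 < y i} := by
  simp only [ofPred_forall]
  exact MeasurableSet.iInter fun i => measurableSet_lt measurable_const (measurable_pi_apply i)

lemma simpCone_integral (h1 : ∀ i, G i 0 = 1) {f : Fin (n + 1) → Fin N}
    (hf : (basisMat G f).det ≠ 0) {g : (Fin (n + 1) → ℝ) → ℝ} {v : ℝ}
    (hg : Integrable (fun y : Fin (n + 1) → ℝ => expProd y * g (basisMat G f *ᵥ y)))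
    (hv : ∫ y : Fin (n + 1) → ℝ, expProd y * g (basisMat G f *ᵥ y) = v) :
    IntegrableOn (fun z => Real.exp (-z 0) * g z) (simpCone G f) ∧
      ∫ z in simpCone G f, Real.exp (-z 0) * g z = |(basisMat G f).det| * v := by
  set M := basisMat G f with hM
  set L := LinearMap.toContinuousLinearMap (Matrix.toLin' M)
  have hd : ∀ x ∈ {y : Fin (n + 1) → ℝ | ∀ i, 0 < y i},
      HasFDerivWithinAt (fun y => M *ᵥ y) L {y : Fin (n + 1) → ℝ | ∀ i, 0 < y i} x := fun x _ =>
    L.hasFDerivWithinAt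
  have hi : InjOn (fun y => M *ᵥ y) {y : Fin (n + 1) → ℝ | ∀ i, 0 < y i} :=
    (Matrix.mulVec_injective_iff_isUnit.2 ((Matrix.isUnit_iff_isUnit_det M).2 hf.isUnit)).injOn
  have hdet : L.det = M.det := by
    simp [L, ContinuousLinearMap.det, LinearMap.det_toLin']
  have h0 : ∀ y : Fin (n + 1) → ℝ, (M *ᵥ y) 0 = ∑ i, y i := fun y => by
    rw [hM, basisMat_mulVec]; simp [Finset.sum_apply, h1]
  have e : {y : Fin (n + 1) → ℝ | ∀ i, 0 < y i}.indicator
      (fun y => |L.det| • (Real.exp (-(M *ᵥ y) 0) * g (M *ᵥ y)))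
      = fun y => |M.det| * (expProd y * g (M *ᵥ y)) := by
    funext y
    rw [← congrFun (orthant_eq fun y => g (M *ᵥ y)) y]
    by_cases hy : y ∈ {y : Fin (n + 1) → ℝ | ∀ i, 0 < y i}
    · rw [indicator_of_mem hy, indicator_of_mem hy, hdet, h0, smul_eq_mul]
    · rw [indicator_of_notMem hy, indicator_of_notMem hy, mul_zero]
  refine ⟨(integrableOn_image_iff_integrableOn_abs_det_fderiv_smul volume measurableSet_orthant
    hd hi _).2 ?_, ?_⟩
  · rw [← integrable_indicator_iff measurableSet_orthant, e]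
    exact hg.const_mul _
  · rw [simpCone, ← hM, integral_image_eq_integral_abs_det_fderiv_smul volume measurableSet_orthant hd hi,
      ← integral_indicator measurableSet_orthant, e, integral_const_mul, hv]

/-- The total mass of the exponential measure on the cone. -/
def coneMass (G : Fin N → Fin (n + 1) → ℝ) : ℝ := ∫ z in posHull G, Real.exp (-z 0)

/-- The second moments of the exponential measure on the cone. -/
def coneSecond (G : Fin N → Fin (n + 1) → ℝ) : Matrix (Fin (n + 1)) (Fin (n + 1)) ℝ :=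
  Matrix.of fun j k => ∫ z in posHull G, Real.exp (-z 0) * (z j * z k)

lemma decomposition_of (h1 : ∀ i, G i 0 = 1) {F : Finset (Fin (n + 1) → Fin N)}
    (hF : ∀ f ∈ F, Function.Injective f ∧ (basisMat G f).det ≠ 0)
    (hdisj : Set.PairwiseDisjoint (F : Set (Fin (n + 1) → Fin N)) (simpCone G))
    (hae : (⋃ f ∈ F, simpCone G f) =ᵐ[volume] posHull G) :
      (∀ f ∈ F, Function.Injective f) ∧
      IntegrableOn (fun z => Real.exp (-z 0)) (posHull G) ∧
      (∀ j k, IntegrableOn (fun z => Real.exp (-z 0) * (z j * z k)) (posHull G)) ∧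
      coneMass G = ∑ f ∈ F, |(basisMat G f).det| ∧
      coneSecond G = ∑ f ∈ F, |(basisMat G f).det| •
        (∑ i, vecMulVec (G (f i)) (G (f i)) + vecMulVec (∑ i, G (f i)) (∑ i, G (f i))) := by
  have hmeas : ∀ f ∈ F, MeasurableSet (simpCone G f) := fun f hf =>
    (isOpen_simpCone (hF f hf).2).measurableSet
  have key0 : ∀ f ∈ F, IntegrableOn (fun z => Real.exp (-z 0)) (simpCone G f) ∧
      ∫ z in simpCone G f, Real.exp (-z 0) = |(basisMat G f).det| := by
    intro f hf
    obtain ⟨⟨i0, v0⟩, -, -⟩ := expProd_moments (N := n + 1)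
    simpa using simpCone_integral h1 (hF f hf).2 (g := fun _ => 1) (v := 1)
      (by simpa using i0) (by simpa using v0)
  have key : ∀ f ∈ F, ∀ j k, IntegrableOn (fun z => Real.exp (-z 0) * (z j * z k)) (simpCone G f) ∧
      ∫ z in simpCone G f, Real.exp (-z 0) * (z j * z k) = |(basisMat G f).det| *
        (∑ i, G (f i) j * G (f i) k + (∑ i, G (f i) j) * ∑ i, G (f i) k) := by
    intro f hf j k
    have e : (fun y : Fin (n + 1) → ℝ =>
        expProd y * ((basisMat G f *ᵥ y) j * (basisMat G f *ᵥ y) k))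
        = fun y => ∑ i, ∑ l, (G (f i) j * G (f l) k) * (expProd y * (y i * y l)) := by
      funext y
      simp only [basisMat_mulVec, Finset.sum_apply, Pi.smul_apply, smul_eq_mul]
      rw [Finset.sum_mul_sum, Finset.mul_sum]
      refine Finset.sum_congr rfl fun i _ => ?_
      rw [Finset.mul_sum]
      exact Finset.sum_congr rfl fun l _ => by ring
    have hi : ∀ i, Integrable fun y : Fin (n + 1) → ℝ =>
        ∑ l, (G (f i) j * G (f l) k) * (expProd y * (y i * y l)) := fun i =>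
      integrable_finsetSum _ fun l _ => (expProd_raw_moment i l).1.const_mul _
    refine simpCone_integral h1 (hF f hf).2 (g := fun z => z j * z k) ?_ ?_
    · rw [e]; exact integrable_finsetSum _ fun i _ => hi i
    · rw [e, integral_finsetSum _ fun i _ => hi i, Finset.sum_mul_sum, ← Finset.sum_add_distrib]
      refine Finset.sum_congr rfl fun i _ => ?_
      rw [integral_finsetSum _ fun l _ => (expProd_raw_moment i l).1.const_mul _]
      simp only [integral_const_mul, (expProd_raw_moment _ _).2]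
      simp [mul_add, Finset.sum_add_distrib, add_comm]
  refine ⟨fun f hf => (hF f hf).1, ?_, fun j k => ?_, ?_, ?_⟩
  · exact (integrableOn_finset_iUnion.2 fun f hf => (key0 f hf).1).congr_set_ae hae.symm
  · exact (integrableOn_finset_iUnion.2 fun f hf => (key f hf j k).1).congr_set_ae hae.symm
  · rw [coneMass, ← setIntegral_congr_set hae,
      integral_biUnion_finset F hmeas hdisj fun f hf => (key0 f hf).1]
    exact Finset.sum_congr rfl fun f hf => (key0 f hf).2
  · ext j k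
    rw [coneSecond, Matrix.of_apply, ← setIntegral_congr_set hae,
      integral_biUnion_finset F hmeas hdisj fun f hf => (key f hf j k).1]
    simp only [Matrix.sum_apply, Matrix.smul_apply, Matrix.add_apply, vecMulVec_apply,
      Finset.sum_apply, smul_eq_mul]
    exact Finset.sum_congr rfl fun f hf => (key f hf j k).2

lemma cone_decomposition (h1 : ∀ i, G i 0 = 1) :
    ∃ F : Finset (Fin (n + 1) → Fin N), (∀ f ∈ F, Function.Injective f) ∧
      IntegrableOn (fun z => Real.exp (-z 0)) (posHull G) ∧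
      (∀ j k, IntegrableOn (fun z => Real.exp (-z 0) * (z j * z k)) (posHull G)) ∧
      coneMass G = ∑ f ∈ F, |(basisMat G f).det| ∧
      coneSecond G = ∑ f ∈ F, |(basisMat G f).det| •
        (∑ i, vecMulVec (G (f i)) (G (f i)) + vecMulVec (∑ i, G (f i)) (∑ i, G (f i))) := by
  obtain ⟨F, hF, hdisj, hae⟩ := exists_triangulation h1
  exact ⟨F, decomposition_of h1 hF hdisj hae⟩

/-- The determinant bound for the second moments, given a lower bound on the mass. -/
theorem coneSecond_det_le (h1 : ∀ i, G i 0 = 1)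
    (hinj : Function.Injective (Matrix.of G : Matrix (Fin N) (Fin (n + 1)) ℝ).mulVec)
    (hmass : (((n : ℝ) + 1) / N) ^ (n + 1)
      * ((Matrix.of G : Matrix (Fin N) (Fin (n + 1)) ℝ)ᵀ * Matrix.of G).det ≤ coneMass G ^ 2) :
    n + 1 ≤ N ∧ (coneSecond G).PosSemidef ∧
    (coneSecond G).det ≤ ((n : ℝ) + 2) * ((2 * (N : ℝ) - (n + 1)) / ((n : ℝ) + 1)) ^ (n + 1)
      * coneMass G ^ (n + 3) := by
  classical
  set B : Matrix (Fin N) (Fin (n + 1)) ℝ := Matrix.of G with hB
  have hmN : n + 1 ≤ N := by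
    simpa [Module.finrank_fin_fun] using LinearMap.finrank_le_finrank_of_injective
      (f := B.mulVecLin) hinj
  obtain ⟨F, hFi, -, -, hJ, hS⟩ := cone_decomposition h1
  have hSpsd : (coneSecond G).PosSemidef := by
    rw [hS]
    refine Matrix.posSemidef_sum _ fun f _ => Matrix.PosSemidef.smul ?_ (abs_nonneg _)
    refine Matrix.PosSemidef.add (Matrix.posSemidef_sum _ fun i _ => ?_) ?_
    · simpa using Matrix.posSemidef_vecMulVec_self_star (G (f i))
    · simpa using Matrix.posSemidef_vecMulVec_self_star (∑ i, G (f i))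
  refine ⟨hmN, hSpsd, ?_⟩
  set m : ℝ := (n : ℝ) + 1 with hm
  have hm0 : 0 < m := by positivity
  have hN0 : (0 : ℝ) < N := by exact_mod_cast (show 0 < N by omega)
  have hmN' : m ≤ N := by rw [hm]; exact_mod_cast hmN
  set c : ℝ := m / ((m + 1) * N) with hc
  set R := Bᵀ * B with hR
  have hRp : R.PosDef := by simpa [hR] using Matrix.PosDef.conjTranspose_mul_self B hinj
  set e : Fin (n + 1) → ℝ := Pi.single 0 1 with he
  set A := R⁻¹ - c • vecMulVec e e with hA
  have hBe : B *ᵥ e = fun _ => 1 := by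
    funext i; simp [hB, he, h1]
  have hcancel : ∀ x, R *ᵥ (R⁻¹ *ᵥ x) = x := fun x => by
    rw [Matrix.mulVec_mulVec, Matrix.mul_nonsing_inv _ hRp.det_pos.ne'.isUnit, Matrix.one_mulVec]
  have hquad : ∀ x, x ⬝ᵥ (R⁻¹ *ᵥ x) = ∑ i, (B *ᵥ (R⁻¹ *ᵥ x)) i ^ 2 := by
    intro x
    conv_lhs => rw [dotProduct_comm]; enter [2]; rw [← hcancel x]
    rw [hR, ← Matrix.mulVec_mulVec _ Bᵀ B, Matrix.dotProduct_mulVec, Matrix.vecMul_transpose]
    simp [dotProduct, sq]
  have hx0 : ∀ x : Fin (n + 1) → ℝ, x 0 = ∑ i, (B *ᵥ (R⁻¹ *ᵥ x)) i := by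
    intro x
    conv_lhs => rw [← hcancel x]
    rw [hR, ← Matrix.mulVec_mulVec _ Bᵀ B, ← hR]
    simp [Matrix.mulVec, dotProduct, hB, h1]
  have hAq : ∀ x, x ⬝ᵥ (A *ᵥ x) = x ⬝ᵥ (R⁻¹ *ᵥ x) - c * x 0 ^ 2 := by
    intro x
    have h0 : e ⬝ᵥ x = x 0 := by simp [he]
    have h0' : x ⬝ᵥ e = x 0 := by rw [dotProduct_comm, h0]
    rw [hA, Matrix.sub_mulVec, Matrix.smul_mulVec, dotProduct_sub, Matrix.vecMulVec_mulVec,
      dotProduct_smul, op_smul_eq_smul, dotProduct_smul, h0, h0', smul_eq_mul, smul_eq_mul, sq]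
  have hApsd : A.PosSemidef := by
    refine Matrix.PosSemidef.of_dotProduct_mulVec_nonneg ?_ fun x => ?_
    · refine hRp.inv.1.sub ?_
      ext j k; simp [vecMulVec_apply, mul_comm]
    · rw [star_trivial, hAq, hquad, hx0 x, sub_nonneg]
      have h := sq_sum_le_card_mul_sum_sq (s := (Finset.univ : Finset (Fin N)))
        (f := fun i => (B *ᵥ (R⁻¹ *ᵥ x)) i)
      rw [Finset.card_univ, Fintype.card_fin] at h
      calc c * (∑ i, (B *ᵥ (R⁻¹ *ᵥ x)) i) ^ 2
          ≤ c * ((N : ℝ) * ∑ i, (B *ᵥ (R⁻¹ *ᵥ x)) i ^ 2) :=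
            mul_le_mul_of_nonneg_left h (by positivity)
        _ = (m / (m + 1)) * ∑ i, (B *ᵥ (R⁻¹ *ᵥ x)) i ^ 2 := by rw [hc]; field_simp
        _ ≤ _ := mul_le_of_le_one_left (Finset.sum_nonneg fun i _ => sq_nonneg _)
            ((div_le_one (by positivity)).2 (by linarith))
  have hRee : (R *ᵥ e) ⬝ᵥ e = N := by
    rw [dotProduct_comm, hR, ← Matrix.mulVec_mulVec, Matrix.dotProduct_mulVec,
      Matrix.vecMul_transpose, hBe]
    simp [dotProduct]
  have hAdet : A.det = (R.det)⁻¹ / (m + 1) := by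
    have hfac : A = R⁻¹ * (1 + Matrix.replicateCol Unit (R *ᵥ e)
        * Matrix.replicateRow Unit ((-c) • e)) := by
      rw [← Matrix.vecMulVec_eq, Matrix.mul_add, Matrix.mul_one, Matrix.mul_vecMulVec,
        Matrix.mulVec_mulVec, Matrix.nonsing_inv_mul _ hRp.det_pos.ne'.isUnit, Matrix.one_mulVec,
        Matrix.vecMulVec_smul, hA, neg_smul, sub_eq_add_neg]
    rw [hfac, Matrix.det_mul, Matrix.det_one_add_replicateCol_mul_replicateRow,
      Matrix.det_nonsing_inv, Ring.inverse_eq_inv', smul_dotProduct, dotProduct_comm e, hRee]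
    rw [hc, smul_eq_mul]
    field_simp
    ring
  set H := B * R⁻¹ * Bᵀ with hH
  have hHxy : ∀ u w : Fin N → ℝ, u ⬝ᵥ (H *ᵥ w) = (Bᵀ *ᵥ u) ⬝ᵥ (R⁻¹ *ᵥ (Bᵀ *ᵥ w)) := by
    intro u w
    rw [hH, ← Matrix.mulVec_mulVec, ← Matrix.mulVec_mulVec, Matrix.dotProduct_mulVec,
      ← Matrix.mulVec_transpose]
  have hHle : ∀ u : Fin N → ℝ, u ⬝ᵥ (H *ᵥ u) ≤ ∑ i, u i ^ 2 := by
    intro u
    set y := R⁻¹ *ᵥ (Bᵀ *ᵥ u) with hy
    have h1' : u ⬝ᵥ (H *ᵥ u) = ∑ i, (B *ᵥ y) i ^ 2 := by rw [hHxy, hquad, hy]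
    have h2 : u ⬝ᵥ (H *ᵥ u) = ∑ i, u i * (B *ᵥ y) i := by
      rw [hH, ← Matrix.mulVec_mulVec, ← Matrix.mulVec_mulVec]; rfl
    have h3 : 0 ≤ ∑ i, (u i - (B *ᵥ y) i) ^ 2 := Finset.sum_nonneg fun i _ => sq_nonneg _
    have h4 : ∑ i, (u i - (B *ᵥ y) i) ^ 2
        = ∑ i, u i ^ 2 - 2 * ∑ i, u i * (B *ᵥ y) i + ∑ i, (B *ᵥ y) i ^ 2 := by
      rw [Finset.mul_sum, ← Finset.sum_sub_distrib, ← Finset.sum_add_distrib]
      exact Finset.sum_congr rfl fun i _ => by ring
    linarith
  have hHtr : ∑ l, (G l) ⬝ᵥ (R⁻¹ *ᵥ G l) = m := by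
    have e' : ∀ l, (G l) ⬝ᵥ (R⁻¹ *ᵥ G l) = H l l := fun l => by
      rw [hH, Matrix.mul_assoc]
      simp only [Matrix.mul_apply, Matrix.transpose_apply, hB, Matrix.of_apply, dotProduct,
        Matrix.mulVec]
    simp only [e']
    change H.trace = m
    rw [hH, Matrix.trace_mul_cycle, ← hR, Matrix.mul_nonsing_inv _ hRp.det_pos.ne'.isUnit,
      Matrix.trace_one, Fintype.card_fin, hm]
    push_cast
    rfl
  have hRnn : ∀ x, 0 ≤ x ⬝ᵥ (R⁻¹ *ᵥ x) := fun x => by
    rw [hquad]; exact Finset.sum_nonneg fun i _ => sq_nonneg _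
  have hterm : ∀ f ∈ F, (A * (∑ i, vecMulVec (G (f i)) (G (f i))
      + vecMulVec (∑ i, G (f i)) (∑ i, G (f i)))).trace ≤ 2 * m - m ^ 2 / N := by
    intro f hf
    have etr : ∀ x, (A * vecMulVec x x).trace = x ⬝ᵥ (R⁻¹ *ᵥ x) - c * x 0 ^ 2 := fun x => by
      rw [Matrix.mul_vecMulVec, Matrix.trace_vecMulVec, dotProduct_comm, hAq]
    rw [Matrix.mul_add, Matrix.trace_add, Matrix.mul_sum, Matrix.trace_sum, etr]
    simp only [etr, h1, one_pow, mul_one, Finset.sum_sub_distrib, Finset.sum_const, Finset.card_univ,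
      Fintype.card_fin, nsmul_eq_mul, Finset.sum_apply]
    have a1 : ∑ i, G (f i) ⬝ᵥ (R⁻¹ *ᵥ G (f i)) ≤ m := by
      rw [← hHtr, ← Finset.sum_image (f := fun l => G l ⬝ᵥ (R⁻¹ *ᵥ G l)) (hFi f hf).injOn]
      exact Finset.sum_le_univ_sum_of_nonneg fun l => hRnn _
    have a2 : (∑ i, G (f i)) ⬝ᵥ (R⁻¹ *ᵥ ∑ i, G (f i)) ≤ m := by
      set u : Fin N → ℝ := fun l => if l ∈ Finset.univ.image f then 1 else 0 with hu
      have hBu : Bᵀ *ᵥ u = ∑ i, G (f i) := by
        rw [← Finset.sum_image (f := fun l => G l) (hFi f hf).injOn]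
        funext j
        simp only [Matrix.mulVec, dotProduct, Matrix.transpose_apply, hB, Matrix.of_apply, hu,
          Finset.sum_apply, mul_ite, mul_one, mul_zero, Finset.sum_ite_mem, Finset.univ_inter]
      rw [← hBu, ← hHxy]
      refine (hHle u).trans (le_of_eq ?_)
      simp [hu, Finset.card_image_of_injective _ (hFi f hf), hm]
    have hm' : ((n + 1 : ℕ) : ℝ) = m := by rw [hm]; push_cast; ring
    rw [hm']
    have : c * m + c * m ^ 2 = m ^ 2 / N := by rw [hc]; field_simp; ring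
    linarith
  have htr : (A * coneSecond G).trace ≤ coneMass G * (2 * m - m ^ 2 / N) := by
    rw [hS, hJ, Matrix.mul_sum, Matrix.trace_sum, Finset.sum_mul]
    refine Finset.sum_le_sum fun f hf => ?_
    rw [Matrix.mul_smul, Matrix.trace_smul, smul_eq_mul]
    exact mul_le_mul_of_nonneg_left (hterm f hf) (abs_nonneg _)
  have htr0 : 0 ≤ (A * coneSecond G).trace := by
    obtain ⟨U, hU⟩ := psd_gram hApsd
    rw [hU, Matrix.mul_assoc, Matrix.trace_mul_comm]
    exact (hSpsd.mul_mul_conjTranspose_same U).trace_nonneg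
  have hdet := det_mul_det_le hApsd hSpsd
  have hJ0 : 0 ≤ coneMass G := by rw [hJ]; exact Finset.sum_nonneg fun f _ => abs_nonneg _
  have hm' : ((n + 1 : ℕ) : ℝ) = m := by rw [hm]; push_cast; ring
  rw [hAdet, hm'] at hdet
  have h2 : (R.det)⁻¹ / (m + 1) * (coneSecond G).det
      ≤ coneMass G ^ (n + 1) * ((2 * (N : ℝ) - m) / N) ^ (n + 1) := by
    refine hdet.trans ?_
    rw [← mul_pow]
    refine pow_le_pow_left₀ (div_nonneg htr0 hm0.le) ?_ _
    rw [div_le_iff₀ hm0]
    refine htr.trans (le_of_eq ?_)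
    field_simp
  have hRd : R.det ≤ ((N : ℝ) / m) ^ (n + 1) * coneMass G ^ 2 := by
    calc R.det = ((N : ℝ) / m) ^ (n + 1) * ((m / N) ^ (n + 1) * R.det) := by
          rw [← mul_assoc, ← mul_pow, div_mul_div_cancel₀ hm0.ne', div_self hN0.ne', one_pow,
            one_mul]
      _ ≤ _ := mul_le_mul_of_nonneg_left hmass (by positivity)
  calc (coneSecond G).det = R.det * (m + 1) * ((R.det)⁻¹ / (m + 1) * (coneSecond G).det) := by
        field_simp [hRp.det_pos.ne']
    _ ≤ ((N : ℝ) / m) ^ (n + 1) * coneMass G ^ 2 * (m + 1)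
        * (coneMass G ^ (n + 1) * ((2 * (N : ℝ) - m) / N) ^ (n + 1)) := by
        refine mul_le_mul (mul_le_mul_of_nonneg_right hRd (by positivity)) h2
          (mul_nonneg (div_nonneg (inv_nonneg.2 hRp.det_pos.le) (by positivity)) hSpsd.det_nonneg)
          (by positivity)
    _ = (m + 1) * (((N : ℝ) / m) * ((2 * (N : ℝ) - m) / N)) ^ (n + 1)
        * (coneMass G ^ 2 * coneMass G ^ (n + 1)) := by
        rw [mul_pow]; ring
    _ = _ := by
        rw [← pow_add, show 2 + (n + 1) = n + 3 by omega,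
          show (N : ℝ) / m * ((2 * (N : ℝ) - m) / N) = (2 * (N : ℝ) - m) / m by field_simp]
        rw [hm]
        ring

end Vale.Agent.P254.FewFacets.Vertices
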