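import Vale.Agent.P254.FewFacets.Main
import Vale.Agent.P254.FewFacets.Vertices.Moments
import Vale.Agent.P248.FewVertices.Frame
import Vale.Agent.P248.FewVertices.Core

/-!
Isotropic constants of polytopes with few vertices compared with that of the simplex.
-/

noncomputable section

open MeasureTheory Set Matrix
open scoped ENNReal Nat

namespace Vale.Agent.P254.FewFacets.Vertices

open Vale.Agent.P248.FewVertices (coneOver measurableSet_coneOver)

variable {n N : ℕ}

/-- The points lifted to height one. -/
def lift (v : Fin N → Fin n → ℝ) : Fin N → Fin (n + 1) → ℝ := fun i => Fin.cons 1 (v i)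

/-- Block covariance in lifted coordinates. -/
def liftCov (M : Matrix (Fin n) (Fin n) ℝ) : Matrix (Fin (n + 1)) (Fin (n + 1)) ℝ :=
  Matrix.of (Fin.cons (Fin.cons 1 0) fun j => Fin.cons 0 fun l => M j l)

lemma liftCov_det (M : Matrix (Fin n) (Fin n) ℝ) : (liftCov M).det = M.det := by
  rw [Matrix.det_succ_row_zero, Finset.sum_eq_single 0]
  · have e : (liftCov M).submatrix Fin.succ (Fin.succAbove 0) = M := by
      ext j l
      simp [liftCov]
    rw [e]
    simp [liftCov]
  · intro j _ hj
    obtain ⟨l, rfl⟩ := Fin.exists_succ_eq.2 hj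
    simp [liftCov]
  · simp

lemma coneOver_integral_real {K : Set (Fin n → ℝ)} (hK : MeasurableSet K) (q : ℕ)
    (h : (Fin n → ℝ) → ℝ)
    (hint : IntegrableOn (fun z => Real.exp (-z 0) * (z 0 ^ q * h fun j => (z 0)⁻¹ * z j.succ))
      (coneOver K)) :
    ∫ z in coneOver K, Real.exp (-z 0) * (z 0 ^ q * h fun j => (z 0)⁻¹ * z j.succ)
      = ((n + q) ! : ℝ) * ∫ x in K, h x := by
  set e := MeasurableEquiv.piFinSuccAbove (fun _ : Fin (n + 1) => ℝ) 0 with he
  have hep : MeasurePreserving e volume volume :=
    volume_preserving_piFinSuccAbove (fun _ : Fin (n + 1) => ℝ) 0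
  have hsymm : ∀ (s : ℝ) (x : Fin n → ℝ), e.symm (s, x) = Fin.cons s x := by
    intro s x; simp [he, Fin.consEquiv]
  have hC := measurableSet_coneOver hK
  set F := (coneOver K).indicator
    fun z => Real.exp (-z 0) * (z 0 ^ q * h fun j => (z 0)⁻¹ * z j.succ) with hF
  have hFi : Integrable F := (integrable_indicator_iff hC).2 hint
  rw [← integral_indicator hC, ← hF, ← (hep.symm e).integral_comp' F, Measure.volume_eq_prod,
    integral_prod]
  swap
  · rw [← Measure.volume_eq_prod]
    exact ((hep.symm e).integrable_comp_emb e.symm.measurableEmbedding).2 hFi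
  simp only [hsymm]
  have hin : ∀ t : ℝ, ∫ x : Fin n → ℝ, F (Fin.cons t x)
      = (Ioi (0 : ℝ)).indicator (fun t => Real.exp (-t) * t ^ (n + q) * ∫ x in K, h x) t := by
    intro t
    by_cases ht : 0 < t
    · rw [indicator_of_mem (mem_Ioi.2 ht)]
      have e' : ∀ x : Fin n → ℝ,
          F (Fin.cons t x) = Real.exp (-t) * t ^ q * K.indicator h (t⁻¹ • x) := by
        intro x
        by_cases hx : t⁻¹ • x ∈ K
        · rw [hF, indicator_of_mem (show (Fin.cons t x : Fin (n + 1) → ℝ) ∈ coneOver K by
            refine ⟨by simpa using ht, ?_⟩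
            simp only [Fin.cons_zero, Fin.cons_succ]
            exact hx), indicator_of_mem hx]
          simp [Pi.smul_def, mul_assoc]
        · rw [hF, indicator_of_notMem (show (Fin.cons t x : Fin (n + 1) → ℝ) ∉ coneOver K by
            intro hm; exact hx (by simpa [Pi.smul_def] using hm.2)), indicator_of_notMem hx, mul_zero]
      simp only [e']
      rw [integral_const_mul, Measure.integral_comp_inv_smul_of_nonneg volume (K.indicator h) ht.le,
        integral_indicator hK, Module.finrank_fin_fun, smul_eq_mul, pow_add]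
      ring
    · rw [indicator_of_notMem (by simpa using ht)]
      refine integral_eq_zero_of_ae (Filter.Eventually.of_forall fun x => ?_)
      exact indicator_of_notMem (fun hm => ht (by simpa using hm.1)) _
  simp only [hin]
  rw [integral_indicator measurableSet_Ioi, integral_mul_const]
  congr 1
  rw [← Real.Gamma_nat_eq_factorial, Real.Gamma_eq_integral (by positivity)]
  exact setIntegral_congr_fun measurableSet_Ioi fun t _ => by simp [-Nat.cast_add]

lemma mem_convexHull_iff (v : Fin N → Fin n → ℝ) (x : Fin n → ℝ) :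
    x ∈ convexHull ℝ (range v) ↔
      ∃ t : Fin N → ℝ, (∀ i, 0 ≤ t i) ∧ ∑ i, t i = 1 ∧ ∑ i, t i • v i = x := by
  constructor
  · intro hx
    have hc : Convex ℝ {x : Fin n → ℝ |
        ∃ t : Fin N → ℝ, (∀ i, 0 ≤ t i) ∧ ∑ i, t i = 1 ∧ ∑ i, t i • v i = x} := by
      rintro a ⟨t, ht, ht1, rfl⟩ b ⟨s, hs, hs1, rfl⟩ p q hp hq hpq
      refine ⟨fun i => p * t i + q * s i,
        fun i => add_nonneg (mul_nonneg hp (ht i)) (mul_nonneg hq (hs i)), ?_, ?_⟩
      · rw [Finset.sum_add_distrib, ← Finset.mul_sum, ← Finset.mul_sum, ht1, hs1, mul_one, mul_one,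
          hpq]
      · simp only [add_smul, ← smul_smul, Finset.sum_add_distrib, ← Finset.smul_sum]
    refine convexHull_min ?_ hc hx
    rintro _ ⟨i, rfl⟩
    classical
    refine ⟨fun l => if l = i then 1 else 0, fun l => by dsimp only; split <;> norm_num, by simp, by simp⟩
  · rintro ⟨t, ht, ht1, rfl⟩
    exact (convex_convexHull ℝ _).sum_mem (fun i _ => ht i) ht1
      fun i _ => subset_convexHull ℝ _ ⟨i, rfl⟩

lemma posHull_lift (v : Fin N → Fin n → ℝ) :
    posHull (lift v) = coneOver (convexHull ℝ (range v)) ∪ {0} := by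
  ext z
  constructor
  · rintro ⟨t, ht, rfl⟩
    set τ := ∑ i, t i with hτ
    rcases (Finset.sum_nonneg fun i _ => ht i : (0 : ℝ) ≤ τ).eq_or_lt with h0 | h0
    · right
      have := (Finset.sum_eq_zero_iff_of_nonneg fun i _ => ht i).1 h0.symm
      exact Finset.sum_eq_zero fun i hi => by rw [this i hi, zero_smul]
    · left
      have hz0 : (∑ i, t i • lift v i) 0 = τ := by simp [Finset.sum_apply, lift, hτ]
      refine ⟨hz0.symm ▸ h0, (mem_convexHull_iff v _).2
        ⟨fun i => τ⁻¹ * t i, fun i => mul_nonneg (inv_nonneg.2 h0.le) (ht i), ?_, ?_⟩⟩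
      · rw [← Finset.mul_sum, ← hτ, inv_mul_cancel₀ h0.ne']
      · funext j
        rw [hz0]
        simp [Finset.sum_apply, lift, Finset.mul_sum, mul_assoc]
  · rintro (⟨h0, hK⟩ | h)
    · obtain ⟨t, ht, ht1, hte⟩ := (mem_convexHull_iff v _).1 hK
      refine ⟨fun i => z 0 * t i, fun i => mul_nonneg h0.le (ht i), ?_⟩
      funext j
      refine Fin.cases ?_ (fun j' => ?_) j
      · simp [Finset.sum_apply, lift, ← Finset.mul_sum, ht1]
      · have := congrFun hte j'
        simp only [Finset.sum_apply, Pi.smul_apply, smul_eq_mul] at this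
        simp only [Finset.sum_apply, lift, Pi.smul_apply, Fin.cons_succ, smul_eq_mul, mul_assoc,
          ← Finset.mul_sum, this]
        field_simp
    · refine ⟨fun _ => 0, fun _ => le_rfl, ?_⟩
      simpa using h

lemma mass_lower_vertices {G : Fin N → Fin (n + 1) → ℝ} (h1 : ∀ i, G i 0 = 1) (hmN : n + 1 ≤ N)
    (hinj : Function.Injective (Matrix.of G : Matrix (Fin N) (Fin (n + 1)) ℝ).mulVec)
    (hmeas : MeasurableSet (posHull G)) :
    (((n : ℝ) + 1) / N) ^ (n + 1)
      * ((Matrix.of G : Matrix (Fin N) (Fin (n + 1)) ℝ)ᵀ * Matrix.of G).det ≤ coneMass G ^ 2 := by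
  classical
  set b : ℝ := ((n : ℝ) + 1) / N with hb
  have hN : (0 : ℝ) < N := by exact_mod_cast (show 0 < N by omega)
  have hb0 : 0 < b := by positivity
  have hsb : 0 < √b := Real.sqrt_pos.2 hb0
  obtain ⟨M, hM, hu⟩ := Vale.Agent.P248.FewVertices.exists_frame (fun i => √b • G i) fun x hx => by
    refine hinj ?_
    rw [Matrix.mulVec_zero]
    funext i
    have h := hx i
    simp only [Pi.smul_apply, smul_eq_mul, mul_assoc, ← Finset.mul_sum] at h
    simpa [Matrix.mulVec, dotProduct] using (mul_eq_zero.1 h).resolve_left hsb.ne'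
  set u : Fin N → Fin (n + 1) → ℝ := fun i => M *ᵥ (√b • G i) with hudef
  set e : Fin (n + 1) → ℝ := Pi.single 0 1 ᵥ* M⁻¹ with hedef
  have heM : ∀ w : Fin (n + 1) → ℝ, ∑ j, e j * (M *ᵥ w) j = w 0 := fun w => by
    change e ⬝ᵥ (M *ᵥ w) = w 0
    rw [Matrix.dotProduct_mulVec, hedef, Matrix.vecMul_vecMul, Matrix.nonsing_inv_mul _ hM.isUnit,
      Matrix.vecMul_one, single_dotProduct, one_mul]
  have hJ := Vale.Agent.P248.FewVertices.cone_ge_one hu (b := fun _ => b) (fun _ => hb0)
    (by simp [hb]; field_simp) e fun i => by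
    simp only [hudef]
    rw [Finset.sum_congr rfl fun j _ => mul_comm _ (e j), heM]
    simp [h1]
  have hsub : Vale.Agent.P248.FewVertices.cone u ⊆ (fun x => M *ᵥ x) '' posHull G := by
    rintro _ ⟨t, ht, rfl⟩
    refine ⟨∑ i, (t i * √b) • G i, ⟨fun i => t i * √b, fun i => mul_nonneg (ht i) hsb.le, rfl⟩, ?_⟩
    change M *ᵥ _ = _
    rw [Matrix.mulVec_sum]
    exact Finset.sum_congr rfl fun i _ => by simp [hudef, Matrix.mulVec_smul, smul_smul]
  obtain ⟨F, -, hi, -, -, -⟩ := cone_decomposition h1
  have hJ' := hJ.trans (lintegral_mono_set hsub)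
  rw [Vale.Agent.P248.FewVertices.lintegral_image_mulVec M hM hmeas] at hJ'
  simp only [heM] at hJ'
  rw [← ofReal_integral_eq_lintegral_ofReal hi
    (Filter.Eventually.of_forall fun z => (Real.exp_pos _).le),
    ← ENNReal.ofReal_mul (abs_nonneg _), ENNReal.one_le_ofReal] at hJ'
  change 1 ≤ |M.det| * coneMass G at hJ'
  set B : Matrix (Fin N) (Fin (n + 1)) ℝ := Matrix.of G with hB
  have hfr : M * (b • (Bᵀ * B)) * Mᵀ = 1 := by
    have hu' : (Matrix.of u : Matrix (Fin N) (Fin (n + 1)) ℝ) = √b • (B * Mᵀ) := by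
      ext i j
      simp [hudef, hB, Matrix.mul_apply, Matrix.mulVec, dotProduct, Finset.mul_sum, mul_comm,
        mul_left_comm, mul_assoc]
    have : (Matrix.of u : Matrix (Fin N) (Fin (n + 1)) ℝ)ᵀ * Matrix.of u = 1 := by
      ext j k
      simp [Matrix.mul_apply, Matrix.one_apply, hu j k]
    rw [hu'] at this
    simp only [Matrix.transpose_smul, Matrix.transpose_mul, Matrix.transpose_transpose,
      Matrix.smul_mul, Matrix.mul_smul, smul_smul, Real.mul_self_sqrt hb0.le] at this
    rw [← this]
    simp only [Matrix.mul_smul, Matrix.smul_mul, Matrix.mul_assoc]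
  have hd := congrArg Matrix.det hfr
  rw [Matrix.det_mul, Matrix.det_mul, Matrix.det_transpose, Matrix.det_smul, Matrix.det_one,
    Fintype.card_fin] at hd
  have hsq : 1 ≤ M.det ^ 2 * coneMass G ^ 2 := by
    rw [← sq_abs M.det, ← mul_pow]; exact one_le_pow₀ hJ'
  refine le_of_mul_le_mul_left ?_ (show 0 < M.det ^ 2 by positivity)
  calc M.det ^ 2 * (b ^ (n + 1) * (Bᵀ * B).det) = 1 := by rw [← hd]; ring
    _ ≤ _ := hsq

/-- The covariance of a centred hull of points through the second moments of the lifted cone. -/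
theorem centred_ratio (v : Fin N → Fin n → ℝ) (hfull : (interior (convexHull ℝ (range v))).Nonempty)
    (hcent : ∀ j, ∫ x in convexHull ℝ (range v), x j = 0) :
    n + 1 ≤ N ∧ Function.Injective (Matrix.of (lift v) : Matrix (Fin N) (Fin (n + 1)) ℝ).mulVec ∧
      MeasurableSet (posHull (lift v)) ∧ 0 < coneMass (lift v) ∧
      (covMatrix (convexHull ℝ (range v))).det / (volume (convexHull ℝ (range v))).toReal ^ 2
        = (coneSecond (lift v)).det / (((n : ℝ) + 2) * coneMass (lift v) ^ (n + 3))
          * ((n ! : ℝ) ^ 2 / (((n : ℝ) + 1) ^ (n + 1) * ((n : ℝ) + 2) ^ n)) := by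
  set K := convexHull ℝ (range v) with hK
  have hKc : IsCompact K := (finite_range v).isCompact_convexHull ℝ
  set V := (volume K).toReal with hV
  have hV0 : 0 < V := ENNReal.toReal_pos
    (lt_of_lt_of_le (isOpen_interior.measure_pos volume hfull) (measure_mono interior_subset)).ne'
    hKc.measure_lt_top.ne
  set G := lift v with hG
  have h1 : ∀ i, G i 0 = 1 := fun i => by simp [hG, lift]
  have hCeq := posHull_lift v
  have hCm : MeasurableSet (posHull G) := by
    rw [hG, hCeq]
    exact (measurableSet_coneOver hKc.measurableSet).union (measurableSet_singleton 0)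
  have hinj : Function.Injective (Matrix.of G : Matrix (Fin N) (Fin (n + 1)) ℝ).mulVec := by
    intro z z' h
    set d := z - z' with hd
    have hd0 : ∀ i, d 0 + ∑ j : Fin n, d j.succ * v i j = 0 := fun i => by
      have := congrFun h i
      simp only [Matrix.mulVec, dotProduct, Matrix.of_apply, hG, lift, Fin.sum_univ_succ,
        Fin.cons_zero, Fin.cons_succ, one_mul] at this
      simp only [hd, Pi.sub_apply, mul_comm _ (v i _), mul_sub, Finset.sum_sub_distrib]
      linarith
    have hall : ∀ x ∈ K, d 0 + ∑ j : Fin n, d j.succ * x j = 0 := by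
      intro x hx
      obtain ⟨t, -, ht1, rfl⟩ := (mem_convexHull_iff v x).1 hx
      calc d 0 + ∑ j : Fin n, d j.succ * (∑ i, t i • v i) j
          = ∑ i, t i * (d 0 + ∑ j : Fin n, d j.succ * v i j) := by
            simp only [Finset.sum_apply, Pi.smul_apply, smul_eq_mul, Finset.mul_sum, mul_add,
              Finset.sum_add_distrib, ← Finset.sum_mul, ht1, one_mul]
            congr 1
            rw [Finset.sum_comm]
            exact Finset.sum_congr rfl fun i _ => Finset.sum_congr rfl fun j _ => by ring
        _ = 0 := by simp [hd0]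
    obtain ⟨x₀, hx₀⟩ := hfull
    have hsucc : ∀ j : Fin n, d j.succ = 0 := by
      intro j
      have hc : Continuous fun s : ℝ => x₀ + s • (Pi.single j 1 : Fin n → ℝ) := by fun_prop
      obtain ⟨δ, hδ, hball⟩ := Metric.mem_nhds_iff.1 ((isOpen_interior.preimage hc).mem_nhds
        (show (0 : ℝ) ∈ (fun s : ℝ => x₀ + s • (Pi.single j 1 : Fin n → ℝ)) ⁻¹' interior K by
          simpa using hx₀))
      have h2 := hall _ (interior_subset (hball (show δ / 2 ∈ Metric.ball 0 δ by
        rw [Metric.mem_ball, dist_zero_right, Real.norm_eq_abs, abs_of_pos (by positivity)]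
        linarith)))
      have h3 := hall _ (interior_subset hx₀)
      simp only [Pi.add_apply, Pi.smul_apply, smul_eq_mul, mul_add, Finset.sum_add_distrib,
        Pi.single_apply, mul_ite, mul_one, mul_zero, Finset.sum_ite_eq', Finset.mem_univ,
        if_true] at h2
      have : d j.succ * (δ / 2) = 0 := by linarith
      exact (mul_eq_zero.1 this).resolve_right (by positivity)
    have hz : d = 0 := by
      funext j
      refine Fin.cases ?_ hsucc j
      have h3 := hall _ (interior_subset hx₀)
      simpa [hsucc] using h3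
    exact sub_eq_zero.1 hz
  have hmN : n + 1 ≤ N := by
    simpa [Module.finrank_fin_fun] using LinearMap.finrank_le_finrank_of_injective
      (f := (Matrix.of G : Matrix (Fin N) (Fin (n + 1)) ℝ).mulVecLin) hinj
  obtain ⟨F, -, hi0, hi2, -, -⟩ := cone_decomposition h1
  have hae : (posHull G : Set (Fin (n + 1) → ℝ)) =ᵐ[volume] coneOver K := by
    rw [hG, hCeq]
    exact union_ae_eq_left_of_ae_eq_empty (ae_eq_empty.2 (measure_singleton _))
  have hJ : coneMass G = (n ! : ℝ) * V := by
    rw [coneMass, setIntegral_congr_set hae]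
    have hq := coneOver_integral_real hKc.measurableSet 0 (fun _ => 1)
      (by simpa using hi0.congr_set_ae hae.symm)
    simpa [← hV, Measure.real] using hq
  have hint : ∀ f : (Fin n → ℝ) → ℝ, Continuous f → IntegrableOn f K := fun f hf =>
    hf.continuousOn.integrableOn_compact hKc
  have hcK : ∀ j, centroid K j = 0 := fun j => by simp [centroid, hcent j]
  have hS : coneSecond G = (((n + 2) ! : ℝ) * V) • liftCov (covMatrix K) := by
    have key : ∀ (j k : Fin (n + 1)) (h : (Fin n → ℝ) → ℝ),
        (∀ z : Fin (n + 1) → ℝ, 0 < z 0 → z j * z k = z 0 ^ 2 * h fun l => (z 0)⁻¹ * z l.succ) →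
        coneSecond G j k = ((n + 2) ! : ℝ) * ∫ x in K, h x := by
      intro j k h hh
      have he : EqOn (fun z : Fin (n + 1) → ℝ => Real.exp (-z 0) * (z j * z k))
          (fun z => Real.exp (-z 0) * (z 0 ^ 2 * h fun l => (z 0)⁻¹ * z l.succ)) (coneOver K) :=
        fun z hz => by
          change Real.exp (-z 0) * (z j * z k) = _
          rw [hh z hz.1]
      have hm := measurableSet_coneOver hKc.measurableSet
      rw [coneSecond, Matrix.of_apply, setIntegral_congr_set hae, setIntegral_congr_fun hm he]
      exact coneOver_integral_real hKc.measurableSet 2 h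
        (((hi2 j k).congr_set_ae hae.symm).congr_fun he hm)
    ext j k
    refine Fin.cases ?_ (fun j' => ?_) j <;> refine Fin.cases ?_ (fun k' => ?_) k
    · rw [key 0 0 (fun _ => 1) fun z _ => by ring]
      simp [liftCov, ← hV, Measure.real]
    · rw [key 0 k'.succ (fun x => x k') fun z hz => by field_simp, hcent]
      simp [liftCov]
    · rw [key j'.succ 0 (fun x => x j') fun z hz => by field_simp, hcent]
      simp [liftCov]
    · rw [key j'.succ k'.succ (fun x => x j' * x k') fun z hz => by field_simp]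
      simp [liftCov, covMatrix, hcK, ← hV]
      field_simp
  refine ⟨hmN, hinj, hCm, ?_, ?_⟩
  · rw [hJ]; positivity
  · rw [hS, Matrix.det_smul, liftCov_det, Fintype.card_fin, hJ,
      show ((n + 2) ! : ℝ) = ((n : ℝ) + 2) * ((n : ℝ) + 1) * (n ! : ℝ) by
        rw [Nat.factorial_succ, Nat.factorial_succ (n := n)]; push_cast; ring]
    simp only [mul_pow, pow_succ]
    field_simp

/-- The bound for the convex hull of points with centroid at the origin. -/
theorem centred_bound (v : Fin N → Fin n → ℝ) (hfull : (interior (convexHull ℝ (range v))).Nonempty)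
    (hcent : ∀ j, ∫ x in convexHull ℝ (range v), x j = 0) :
    n + 1 ≤ N ∧ 0 ≤ (covMatrix (convexHull ℝ (range v))).det ∧
    (covMatrix (convexHull ℝ (range v))).det / (volume (convexHull ℝ (range v))).toReal ^ 2
      ≤ ((2 * (N : ℝ) - (n + 1)) / ((n : ℝ) + 1)) ^ (n + 1)
        * ((n ! : ℝ) ^ 2 / (((n : ℝ) + 1) ^ (n + 1) * ((n : ℝ) + 2) ^ n)) := by
  obtain ⟨hle, hinj, hCm, hJ0, hratio⟩ := centred_ratio v hfull hcent
  obtain ⟨-, hpsd, hdet⟩ := coneSecond_det_le (fun i => by simp [lift]) hinj
    (mass_lower_vertices (fun i => by simp [lift]) hle hinj hCm)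
  have hV0 : 0 < (volume (convexHull ℝ (range v))).toReal := ENNReal.toReal_pos
    (lt_of_lt_of_le (isOpen_interior.measure_pos volume hfull) (measure_mono interior_subset)).ne'
    ((finite_range v).isCompact_convexHull ℝ).measure_lt_top.ne
  refine ⟨hle, ?_, ?_⟩
  · have h0 : 0 ≤ (covMatrix (convexHull ℝ (range v))).det
        / (volume (convexHull ℝ (range v))).toReal ^ 2 := by
      rw [hratio]
      exact mul_nonneg (div_nonneg hpsd.det_nonneg (by positivity)) (by positivity)
    rw [le_div_iff₀ (by positivity), zero_mul] at h0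
    exact h0
  · rw [hratio]
    gcongr
    rw [div_le_iff₀ (by positivity)]
    linarith

/-- A translation moving the centroid of a hull of points to the origin. -/
lemma exists_centred (v : Fin N → Fin n → ℝ)
    (hfull : (interior (convexHull ℝ (range v))).Nonempty) :
    ∃ A : (Fin n → ℝ) ≃ᵃ[ℝ] (Fin n → ℝ),
      A '' convexHull ℝ (range v) = convexHull ℝ (range fun i => A (v i)) ∧
      (interior (convexHull ℝ (range fun i => A (v i)))).Nonempty ∧
      (∀ j, ∫ x in convexHull ℝ (range fun i => A (v i)), x j = 0) ∧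
      ∀ x, A x = -centroid (convexHull ℝ (range v)) + x := by
  set K := convexHull ℝ (range v) with hK
  have hKc : IsCompact K := (finite_range v).isCompact_convexHull ℝ
  have hV0 : 0 < (volume K).toReal := ENNReal.toReal_pos
    (lt_of_lt_of_le (isOpen_interior.measure_pos volume hfull) (measure_mono interior_subset)).ne'
    hKc.measure_lt_top.ne
  set c := centroid K with hc
  set A : (Fin n → ℝ) ≃ᵃ[ℝ] (Fin n → ℝ) := AffineEquiv.constVAdd ℝ (Fin n → ℝ) (-c) with hA
  have hAx : ∀ x, A x = -c + x := fun x => rfl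
  have hAhull : A '' K = convexHull ℝ (range fun i => A (v i)) := by
    rw [hK, show (range fun i => A (v i)) = A '' range v by rw [← range_comp]; rfl]
    exact A.toAffineMap.image_convexHull _
  have hfull' : (interior (convexHull ℝ (range fun i => A (v i)))).Nonempty := by
    rw [← hAhull]
    have e : (A : (Fin n → ℝ) → Fin n → ℝ) = Homeomorph.addLeft (-c) := funext hAx
    rw [e, ← Homeomorph.image_interior]
    exact hfull.image _
  have hcent : ∀ j, ∫ x in convexHull ℝ (range fun i => A (v i)), x j = 0 := by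
    intro j
    have hint : ∀ f : (Fin n → ℝ) → ℝ, Continuous f → IntegrableOn f K := fun f hf =>
      hf.continuousOn.integrableOn_compact hKc
    have hd : LinearMap.det A.linear.toLinearMap = 1 := by
      simp [hA]
    rw [← hAhull, integral_affine_image A hKc.measurableSet fun x => x j, hd, abs_one, one_mul]
    simp only [hAx, Pi.add_apply, Pi.neg_apply]
    rw [integral_add (hint _ continuous_const) (hint _ (by fun_prop)), setIntegral_const,
      Measure.real, smul_eq_mul, hc, centroid]
    field_simp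
    ring
  exact ⟨A, hAhull, hfull', hcent, hAx⟩

theorem few_vertices_bound (v : Fin N → Fin n → ℝ)
    (hfull : (interior (convexHull ℝ (range v))).Nonempty) :
    n + 1 ≤ N ∧ isoConst (convexHull ℝ (range v))
      ≤ ((2 * (N : ℝ) - n - 1) / ((n : ℝ) + 1)) ^ (((n : ℝ) + 1) / (2 * n))
        * isoConst (stdSimplexBody n) := by
  set K := convexHull ℝ (range v) with hK
  have hKc : IsCompact K := (finite_range v).isCompact_convexHull ℝ
  have hV0 : 0 < (volume K).toReal := ENNReal.toReal_pos
    (lt_of_lt_of_le (isOpen_interior.measure_pos volume hfull) (measure_mono interior_subset)).ne'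
    hKc.measure_lt_top.ne
  obtain ⟨A, hAhull, hfull', hcent, -⟩ := exists_centred v hfull
  obtain ⟨hle, hnn, hbase⟩ := centred_bound (fun i => A (v i)) hfull' hcent
  refine ⟨hle, ?_⟩
  rw [← isoConst_affine A hKc hV0, hAhull, isoConst, isoConst, simplex_value,
    show 2 * (N : ℝ) - n - 1 = 2 * N - (n + 1) by ring]
  have hX : (0 : ℝ) ≤ (2 * (N : ℝ) - (n + 1)) / ((n : ℝ) + 1) := by
    have : ((n : ℝ) + 1) ≤ N := by exact_mod_cast hle
    exact div_nonneg (by linarith) (by positivity)
  refine (Real.rpow_le_rpow (div_nonneg hnn (sq_nonneg _)) hbase (by positivity)).trans (le_of_eq ?_)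
  rw [Real.mul_rpow (pow_nonneg hX _) (by positivity), ← Real.rpow_natCast _ (n + 1),
    ← Real.rpow_mul hX]
  congr 2
  push_cast
  ring

end Vale.Agent.P254.FewFacets.Vertices
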